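import Crest.Agent.X212.Srf12.Rec
import Crest.Agent.X212.Thk1.PL
import Crest.Agent.X212.Ann83.Main
import Crest.Agent.X212.Lev33.St2
import Crest.Agent.X212.Lev33.Nice
import Crest.Agent.X212.Srf12.Iod
import Crest.Agent.X212.Rg3.Com
import Crest.Agent.X212.Rz42.Main
import Crest.Agent.X212.Thk1.Side
import Crest.Agent.X212.Prd34.Defs
import Crest.Agent.R096.Str5_696
import Crest.Agent.X212.Srf12.Defs
import Crest.Agent.R105.Iod1_690
import Crest.Agent.R096.Cx3_609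
import Crest.Agent.X212.Geo46.Defs

-- ▼ part X212/Srf12/Glue
section

/-!
# X212 / SURF (helper12): gluing of surfaces along boundary components, caps
-/

set_option autoImplicit false

open Set Metric Topology Module

namespace Crest.Agent.X212.Srf12

open Crest.Agent.R096 Crest.Agent.R096.Ce_537 Crest.Agent.R096.Cb_609 Crest.Agent.R096.Coh_184
  Crest.Agent.R096.Pl

variable {E : Type*} [NormedAddCommGroup E] [NormedSpace ℝ E] [FiniteDimensional ℝ E]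

/-- small arcs around a point of a circle -/
theorem Circ.small_arc {Γ : Set E} (h : Circ Γ) {x : E} (hx : x ∈ Γ) {O : Set E} (hO : O ∈ 𝓝 x) :
    ∃ α p q, IsBall 1 α {p, q} ∧ α ⊆ Γ ∩ O ∧ x ∈ α ∧ x ≠ p ∧ x ≠ q := by
  obtain ⟨y₁, h1, m1, n1⟩ := h.perfect hx Filter.univ_mem
  obtain ⟨y₂, h2, m2, n2⟩ := h.perfect hx (isOpen_compl_singleton.mem_nhds (Ne.symm n1))
  obtain ⟨r, hr, hrO⟩ := Metric.nhds_basis_closedBall.mem_iff.1 hO
  have key : ∀ A, IsBall 1 A {y₁, y₂} → A ⊆ Γ → x ∈ A →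
      ∃ α p q, IsBall 1 α {p, q} ∧ α ⊆ Γ ∩ O ∧ x ∈ α ∧ x ≠ p ∧ x ≠ q := fun A hA hs hxA => by
    have hxT : x ∉ (ball x r)ᶜ ∪ {y₁, y₂} := by
      rintro (a | a | a)
      exacts [a (mem_ball_self hr), n1 a.symm, n2 a.symm]
    obtain ⟨α, p, q, hα, s, hxα, hi⟩ := exists_gap hA (T := (ball x r)ᶜ ∪ {y₁, y₂})
      (isOpen_ball.isClosed_compl.union (toFinite _).isClosed) (Or.inr (Or.inl rfl))
      (Or.inr (Or.inr rfl)) hxA hxT
    have hpq : ∀ z ∈ ({p, q} : Set E), x ≠ z := fun z hz e => hxT (by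
      rw [← hi] at hz; rw [← e] at hz; exact hz.2)
    refine ⟨α, p, q, hα, subset_inter (s.trans hs) ?_, hxα, hpq p (Or.inl rfl), hpq q (Or.inr rfl)⟩
    rw [← hα.closure_diff]
    refine (closure_minimal (fun z hz => ball_subset_closedBall ?_) isClosed_closedBall).trans hrO
    by_contra a
    exact hz.2 (hi ▸ ⟨hz.1, Or.inl a⟩)
  obtain ⟨A, B, hA, hB, hu, -⟩ := h.two_marks m1 m2 (Ne.symm h2)
  rcases (hu ▸ hx : x ∈ A ∪ B) with a | a
  · exact key A hA (hu ▸ subset_union_left) a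
  · exact key B hB (hu ▸ subset_union_right) a

/-- a half disc standing on an arc of the rim -/
theorem half_disc {D Γ α : Set E} {p q : E} (h : IsBall 2 D Γ) (hα : IsBall 1 α {p, q})
    (hs : α ⊆ Γ) : ∃ D' Γ', IsBall 2 D' Γ' ∧ α ⊆ Γ' ∧ D' ⊆ D ∧ D' ∩ Γ ⊆ α ∧
      ∀ x ∈ α, x ≠ p → x ≠ q → D' ∈ 𝓝[D] x := by
  obtain ⟨β, hP, hu⟩ := exists_compl_arc h hα hs
  obtain ⟨e0, he0, -⟩ := (isBall_Mid 1).exists_equiv hα
  obtain ⟨e, h1, -, h3⟩ := (ballPair_up 1).extend hP e0 he0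
  let σ : (Fin 1 → ℝ) × ℝ → (Fin 1 → ℝ) × ℝ := fun z => (z.1, (1 / 2 : ℝ) * z.2)
  have hσ : MapsTo σ (Up 1) (Up 1) := fun z hz => ⟨by have := hz.1; simp only [σ]; linarith,
    by have := hz.1; have := hz.2; simp only [σ]; linarith⟩
  have pσ : PLOn σ (Up 1) := Thk1.pl_pair (Thk1.pl_fst' _) (Thk1.pl_mul _ (Thk1.pl_snd' _))
  have iσ : Function.Injective σ := fun z w e => by
    simp only [σ, Prod.mk.injEq] at e
    exact Prod.ext e.1 (by linarith [e.2])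
  have hm : ∀ z ∈ Mid 1, σ z = z := fun z hz => Prod.ext rfl (by simp [σ, hz.1])
  have mU : Mid 1 ⊆ Up 1 := (ballPair_up 1).subset₁
  have hD := (isBall_up 1).image_injOn (e.pf.comp pσ hσ)
    (e.injOn.comp iσ.injOn hσ)
  refine ⟨_, _, hD, fun x hx => ⟨e0.g x, Or.inl (e0.mg hx), ?_⟩, ?_, ?_, fun x hx hp hq => ?_⟩
  · simp only
    rw [hm _ (e0.mg hx), h1 (e0.mg hx), e0.ri x hx]
  · rintro _ ⟨z, hz, rfl⟩
    exact e.mf (hσ hz)
  · rintro _ ⟨⟨z, hz, rfl⟩, a⟩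
    rw [← hu] at a
    refine a.elim id fun a => ?_
    rw [← h3] at a
    obtain ⟨w, hw, a⟩ := a
    obtain rfl := e.injOn ((ballPair_up 1).subset₂ hw) (hσ hz) a
    have h4 := hw.2
    have h5 := hz.1
    have h6 := hz.2
    simp only [N1, σ] at h4
    rw [abs_of_nonneg (by linarith)] at h4
    have : z ∈ Mid 1 := ⟨by linarith, by linarith⟩
    simp only
    rw [hm z this, h1 this]
    exact e0.mf this
  · have hz := e0.mg hx
    have hn : ‖(e0.g x).1‖ < 1 := lt_of_le_of_ne hz.2 fun a => by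
      have : x ∈ ({p, q} : Set E) := he0 ▸ ⟨e0.g x, ⟨hz.1, a⟩, e0.ri x hx⟩
      exact this.elim hp hq
    have hW : {z : (Fin 1 → ℝ) × ℝ | 2 * z.2 + ‖z.1‖ < 1} ∈ 𝓝[Up 1] (e0.g x) :=
      mem_nhdsWithin_of_mem_nhds ((isOpen_lt (by fun_prop) continuous_const).mem_nhds
        (by simp only [mem_ofPred_eq, hz.1]; linarith))
    have := Thk1.nhds_image e (mU hz) hW
    rw [h1 hz, e0.ri x hx] at this
    refine Filter.mem_of_superset this ?_
    rintro _ ⟨z, ⟨a, b⟩, rfl⟩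
    refine ⟨(z.1, 2 * z.2), ⟨by have := b.1; simp only; linarith, le_of_lt a⟩, ?_⟩
    simp only [σ]
    congr 1
    exact Prod.ext rfl (by simp only; ring)

/-- **gluing two surfaces along boundary components** -/
theorem Srf.glue {S dS T dT G : Set E} (hS : Srf S dS) (hT : Srf T dT) (hG : S ∩ T = G)
    (h1 : G ⊆ dS) (h2 : G ⊆ dT) (c1 : IsClosed (dS \ G)) :
    Srf (S ∪ T) ((dS ∪ dT) \ G) := by
  have side : ∀ {S dS T dT : Set E}, Srf S dS → Srf T dT → S ∩ T = G → ∀ x ∈ S, x ∉ G →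
      ∃ D Γ, IsBall 2 D Γ ∧ D ⊆ S ∪ T ∧ D ∈ 𝓝[S ∪ T] x ∧ (x ∈ (dS ∪ dT) \ G ↔ x ∈ Γ) := by
    intro S dS T dT hS hT hG x hx hxG
    have hxT : x ∉ T := fun a => hxG (hG ▸ ⟨hx, a⟩)
    obtain ⟨D, Γ, hD, s, n, b⟩ := hS.loc x hx
    refine ⟨D, Γ, hD, s.trans subset_union_left, ?_, ?_⟩
    · rw [nhdsWithin_union, Filter.mem_sup]
      refine ⟨n, ?_⟩
      rw [notMem_closure_iff_nhdsWithin_eq_bot.1 (by rwa [hT.cpt.isClosed.closure_eq])]
      exact Filter.mem_bot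
    · rw [← b]
      exact ⟨fun a => a.1.resolve_right fun c => hxT (hT.sub c), fun a => ⟨Or.inl a, hxG⟩⟩
  refine ⟨hS.cpt.union hT.cpt, sdiff_subset.trans (union_subset_union hS.sub hT.sub),
    fun x hx => ?_⟩
  by_cases hxG : x ∈ G
  swap
  · rcases hx with hx | hx
    · exact side hS hT hG x hx hxG
    · simpa only [union_comm] using side hT hS (by rw [inter_comm, hG]) x hx hxG
  obtain ⟨D, Γ, hD, s, n, b⟩ := hS.loc x (hS.sub (h1 hxG))
  obtain ⟨D', Γ', hD', s', n', b'⟩ := hT.loc x (hT.sub (h2 hxG))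
  have hO : ∀ᶠ y in 𝓝 x, y ∈ Γ → y ∈ G ∧ y ∈ Γ' := by
    filter_upwards [hS.bd_near hD s n, hT.bd_near hD' s' n',
      c1.isOpen_compl.mem_nhds (show x ∉ dS \ G from fun a => a.2 hxG)] with y a1 a2 a3 a4
    have : y ∈ G := by by_contra c; exact a3 ⟨a1.2 a4, c⟩
    exact ⟨this, a2.1 (h2 this)⟩
  obtain ⟨α, p, q, hα, sα, hxα, hp, hq⟩ := (circ_of_disc hD).small_arc (b.1 (h1 hxG)) hO
  obtain ⟨D₁, Γ₁, k1, a1, s1, i1, n1⟩ := half_disc hD hα fun y hy => (sα hy).1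
  obtain ⟨D₂, Γ₂, k2, a2, s2, -, n2⟩ := half_disc hD' hα fun y hy => ((sα hy).2 (sα hy).1).2
  obtain ⟨β₁, β₂, hP, -, -, j1, j2⟩ := glue_disc k1 k2 hα a1 a2 (Subset.antisymm (fun y hy =>
    i1 ⟨hy.1, by
      by_contra c
      exact (hS.disc_int hD s (s1 hy.1) c).1 (h1 (hG ▸ ⟨s (s1 hy.1), s' (s2 hy.2)⟩))⟩)
    (subset_inter (a1.trans k1.subset) (a2.trans k2.subset)))
  refine ⟨_, _, hP.ball, union_subset_union (s1.trans s) (s2.trans s'), ?_,
    iff_of_false (fun a => a.2 hxG) ?_⟩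
  · rw [nhdsWithin_union, Filter.mem_sup, ← nhdsWithin_eq_of s n, ← nhdsWithin_eq_of s' n']
    exact ⟨Filter.mem_of_superset (n1 x hxα hp hq) subset_union_left,
      Filter.mem_of_superset (n2 x hxα hp hq) subset_union_right⟩
  · rintro (a | a)
    · exact (j1 ▸ ⟨hxα, a⟩ : x ∈ ({p, q} : Set E)).elim hp hq
    · exact (j2 ▸ ⟨hxα, a⟩ : x ∈ ({p, q} : Set E)).elim hp hq

/-- **a cap** over a circle, one dimension higher -/
theorem Circ.cap {Γ : Set E} (h : Circ Γ) : ∃ D : Set (E × ℝ),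
    IsBall 2 D ((fun x => (x, (0 : ℝ))) '' Γ) ∧ ∀ z ∈ D, z.2 = 0 → z.1 ∈ Γ := by
  obtain ⟨a⟩ := h
  let φ : (Fin 2 → ℝ) → E × ℝ := fun x => (Cx_609.cone a.f x, 1 - ‖x‖)
  have pφ : PLOn φ (cube 2) := Thk1.pl_pair
    ((Cx_609.plOn_iff.1 (Cx_609.plOn_iff.2 a.pf).cone).mono (subset_univ _))
    (Thk1.pl_sub (plOn_const _ _) (Thk1.pl_norm' _))
  have iφ : InjOn φ (cube 2) := fun x _ y _ e => by
    simp only [φ, Prod.mk.injEq, Cx_609.cone] at e
    have hn : ‖x‖ = ‖y‖ := by linarith [e.2]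
    by_cases h0 : x = 0
    · rw [h0, norm_zero, eq_comm, norm_eq_zero] at hn
      rw [h0, hn]
    · have hy : y ≠ 0 := fun c => h0 (norm_eq_zero.1 (by rw [hn, c, norm_zero]))
      have n0 : ‖y‖ ≠ 0 := norm_ne_zero_iff.2 hy
      have e1 := a.injOn (smul_mem_sph h0) (smul_mem_sph hy)
        (smul_right_injective E n0 (by simpa only [hn] using e.1))
      rw [hn] at e1
      exact smul_right_injective _ (inv_ne_zero n0) e1
  have hs : ∀ x ∈ sph 2, φ x = (a.f x, 0) := fun x hx => by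
    simp only [φ, Cx_609.cone_of_sphere a.f hx, mem_sphere_zero_iff_norm.1 hx]
    rw [sub_self]
  refine ⟨φ '' cube 2, ?_, ?_⟩
  · have := Cx_609.isBall_of_injOn pφ iφ
    rwa [image_congr hs, ← image_image (fun x => (x, (0 : ℝ))) a.f, a.image_eq] at this
  · rintro _ ⟨x, -, rfl⟩ h0
    have : x ∈ sph 2 := mem_sphere_zero_iff_norm.2 (by simp only [φ] at h0; linarith)
    rw [hs x this]
    exact a.mf this

end Crest.Agent.X212.Srf12
end

-- ▼ part X212/Srf12/AnnR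
section

/-!
# X212 / SURF (helper12): recognition of annuli
-/

set_option autoImplicit false

open Set Metric Topology Module

namespace Crest.Agent.X212.Srf12

open Crest.Agent.R096 Crest.Agent.R096.Ce_537 Crest.Agent.R096.Cb_609 Crest.Agent.R096.Coh_184

variable {E : Type*} [NormedAddCommGroup E] [NormedSpace ℝ E]
  {F : Type*} [NormedAddCommGroup F] [NormedSpace ℝ F]

theorem Loop.mem {G : Set E} {γ : ℝ → E} (h : Loop G γ) (s : ℝ) : γ s ∈ G := h.img ▸ ⟨s, rfl⟩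

theorem Loop.map {G : Set E} {G' : Set F} {γ : ℝ → E} (h : Loop G γ) (e : PLEquiv G G') :
    Loop G' fun s => e.f (γ s) :=
  ⟨fun R => e.pf.comp (h.pl R) fun s _ => h.mem s,
    (range_comp e.f γ).trans ((congrArg _ h.img).trans e.image_eq),
    fun s t => (e.injOn.eq_iff (h.mem s) (h.mem t)).trans (h.fib s t)⟩

theorem Ann.mem {S : Set E} {g : (Fin 2 → ℝ) → E} (h : Ann S g) {y : Fin 2 → ℝ} (hy : |y 0| ≤ 1) :
    g y ∈ S := h.img ▸ ⟨y, hy, rfl⟩

theorem Ann.map {S : Set E} {g : (Fin 2 → ℝ) → E} (h : Ann S g) {f : E → F} (hf : PLOn f S)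
    (hi : InjOn f S) : Ann (f '' S) fun y => f (g y) :=
  ⟨fun R => hf.comp (h.pl R) fun _ hy => h.mem hy.1, by rw [← h.img, image_image],
    fun y y' a b => (hi.eq_iff (h.mem a) (h.mem b)).trans (h.fib y y' a b)⟩

theorem Ann.swap {S : Set E} {g : (Fin 2 → ℝ) → E} (h : Ann S g) :
    Ann S fun y => g ![-y 0, y 1] := by
  refine ⟨fun R => (h.pl R).comp (Lad50.pl_vec2 (Lad50.pl_neg (Lad50.pl_coord 0 _))
    (Lad50.pl_coord 1 _)) fun y hy => by simpa using hy, h.img ▸ Subset.antisymm ?_ ?_,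
    fun y y' a b => (h.fib _ _ (by simpa using a) (by simpa using b)).trans (by simp)⟩
  · rintro _ ⟨y, hy, rfl⟩
    exact ⟨_, by simpa using hy, rfl⟩
  · rintro _ ⟨y, hy, rfl⟩
    exact ⟨![-y 0, y 1], by simpa using hy, congrArg g (by ext i; fin_cases i <;> simp)⟩

omit [NormedAddCommGroup E] [NormedSpace ℝ E] in
theorem swap_img (g : (Fin 2 → ℝ) → E) (c : ℝ) :
    (fun y : Fin 2 → ℝ => g ![-y 0, y 1]) '' {y | y 0 = c} = g '' {y | y 0 = -c} := by
  refine Subset.antisymm ?_ ?_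
  · rintro _ ⟨y, rfl, rfl⟩
    exact ⟨_, rfl, rfl⟩
  · rintro _ ⟨y, hy, rfl⟩
    exact ⟨![-y 0, y 1], by simp [show y 0 = -c from hy],
      congrArg g (by ext i; fin_cases i <;> simp)⟩

theorem trivAll_ball {ι A : Type*} [AddCommGroup A] [Finite ι] {k : ℕ} {K dK : Set E}
    (h : IsBall k K dK) : TrivAll ι A K := by
  obtain ⟨e, -⟩ := h
  have h2 := TrivAll.of_image (trivAll_convex (ι := ι) (A := A)
    (isCompact_closedBall (0 : Fin k → ℝ) 1) (convex_closedBall _ _)) isClosed_closedBall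
    (g := e.f) (π := e.g) e.pf.1 (by rw [e.image_eq]; exact e.pg.1) e.li
  rwa [e.image_eq] at h2

variable [FiniteDimensional ℝ E]

theorem Loop.circ {G : Set E} {γ : ℝ → E} (h : Loop G γ) : Circ G := by
  have arc : ∀ a : ℝ, 0 ≤ a → a ≤ 1 / 2 →
      IsBall 1 (γ '' Icc a (a + 1 / 2)) {γ a, γ (a + 1 / 2)} := fun a h0 h1 => by
    have := (isBall_segment (a := a) (b := a + 1 / 2) (by linarith)).image_injOn
      (f := γ) ((h.pl 1).mono ?_) ?_
    · rwa [segment_eq_Icc (by linarith), image_pair] at this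
    · rw [segment_eq_Icc (by linarith)]
      exact Icc_subset_Icc (by linarith) (by linarith)
    · rw [segment_eq_Icc (by linarith)]
      intro s hs t ht e
      obtain ⟨m, hm⟩ := (h.fib s t).1 e
      have : |(m : ℝ)| < 1 := abs_lt.2 ⟨by linarith [hs.1, ht.2], by linarith [hs.2, ht.1]⟩
      have : m = 0 := Int.abs_lt_one_iff.1 (by exact_mod_cast this)
      rw [this, Int.cast_zero] at hm
      linarith
  have hA := arc 0 le_rfl (by norm_num)
  have hB := arc (1 / 2) (by norm_num) le_rfl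
  have e1 : γ (1 / 2 + 1 / 2) = γ 0 := (h.fib _ _).2 ⟨1, by norm_num⟩
  rw [zero_add] at hA
  rw [e1, pair_comm] at hB
  have := circ_union hA hB (Subset.antisymm ?_ (subset_inter hA.subset hB.subset))
  · convert this using 1
    rw [← h.img]
    refine Subset.antisymm ?_ (union_subset (image_subset_range _ _) (image_subset_range _ _))
    rintro _ ⟨s, rfl⟩
    have e : γ (Int.fract s) = γ s := (h.fib _ _).2 ⟨-⌊s⌋, by rw [Int.fract]; push_cast; ring⟩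
    rcases le_total (Int.fract s) (1 / 2) with a | a
    · exact Or.inl ⟨_, ⟨Int.fract_nonneg s, a⟩, e⟩
    · exact Or.inr ⟨_, ⟨a, by linarith [Int.fract_lt_one s]⟩, e⟩
  · rintro _ ⟨⟨s, hs, rfl⟩, t, ht, e⟩
    obtain ⟨m, hm⟩ := (h.fib t s).1 e
    have h0 : (0 : ℝ) ≤ m := by linarith [hs.2, ht.1]
    have h1 : (m : ℝ) ≤ 1 := by linarith [hs.1, ht.2]
    have h0' : 0 ≤ m := by exact_mod_cast h0
    have h1' : m ≤ 1 := by exact_mod_cast h1
    obtain rfl | rfl : m = 0 ∨ m = 1 := by omega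
    · exact Or.inr (congrArg γ (by simp at hm; linarith [hs.2, ht.1]))
    · exact Or.inl (congrArg γ (by simp at hm; linarith [hs.1, ht.2]))

omit [FiniteDimensional ℝ E] in
theorem Circ.loop {G : Set E} (h : Circ G) : ∃ γ, Loop G γ := by
  obtain ⟨a⟩ := h
  have hD := (isBall_cube 2).image_injOn (f := fun x => (1 / 2 : ℝ) • x)
    (Lad50.pl_smul _ (plOn_id _)) (smul_right_injective _ (by norm_num)).injOn
  have hn : ∀ x ∈ (fun x => (1 / 2 : ℝ) • x) '' cube 2, ‖x‖ ≤ 1 / 2 := by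
    rintro _ ⟨x, hx, rfl⟩
    rw [mem_closedBall_zero_iff] at hx
    rw [norm_smul, Real.norm_of_nonneg (by norm_num)]
    linarith
  obtain ⟨g, hg, h1, -⟩ := Ann83.ann_of_disc (isBall_cube 2) hD
    (fun x hx => mem_closedBall_zero_iff.2 (by linarith [hn x hx]))
    (disjoint_left.2 fun x hx h => by linarith [hn x hx, mem_sphere_zero_iff_norm.1 h])
  exact ⟨_, (h1 ▸ Ann83.ann_loop hg (c := -1) (by norm_num)).map a⟩

/-- **a connected surface with two boundary circles, one of which carries `H¹`** -/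
theorem Srf.ann {S G₁ G₂ : Set E} (h : Srf S (G₁ ∪ G₂)) (hd : Disjoint G₁ G₂)
    (hc : IsPreconnected S) (h1 : H1Rel S G₁) (c₁ : Circ G₁) (c₂ : Circ G₂) :
    ∃ g, Ann S g ∧ g '' {y | y 0 = -1} = G₁ ∧ g '' {y | y 0 = 1} = G₂ := by
  let ι : E → E × ℝ := fun x => (x, 0)
  have hι : Function.Injective ι := fun x y e => congrArg Prod.fst e
  have cι : Continuous ι := by fun_prop
  have back : ∀ A : Set E, MapsTo Prod.fst (ι '' A) A := by
    rintro A _ ⟨x, hx, rfl⟩; exact hx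
  let e : ∀ A : Set E, PLEquiv A (ι '' A) := fun A => ⟨ι, Prod.fst,
    Thk1.pl_pair (plOn_id _) (plOn_const _ _), Thk1.pl_fst' _, mapsTo_image _ _, back A,
    fun _ _ => rfl, by rintro _ ⟨x, -, rfl⟩; rfl⟩
  have s₁ : G₁ ⊆ S := subset_union_left.trans h.sub
  have s₂ : G₂ ⊆ S := subset_union_right.trans h.sub
  obtain ⟨D, hD, h0⟩ := c₁.cap
  change IsBall 2 D (ι '' G₁) at hD
  have hS : Srf (ι '' S) (ι '' (G₁ ∪ G₂)) := h.map (e S)
  have hi : ι '' S ∩ D = ι '' G₁ := by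
    refine Subset.antisymm ?_ (subset_inter (image_mono s₁) hD.subset)
    rintro _ ⟨⟨x, -, rfl⟩, hx⟩
    exact ⟨x, h0 _ hx rfl, rfl⟩
  have hd' : Disjoint (ι '' G₂) (ι '' G₁) := (disjoint_image_iff hι).2 hd.symm
  have e1 : ι '' (G₁ ∪ G₂) \ ι '' G₁ = ι '' G₂ := by
    rw [image_union, union_sdiff_left, hd'.sdiff_eq_left]
  have c₂' : Circ (ι '' G₂) := c₂.map (e G₂)
  have hB := hS.glue (srf_of_isBall hD) hi (image_mono subset_union_left) Subset.rfl
    (e1 ▸ c₂'.isClosed)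
  rw [union_sdiff_right, e1] at hB
  have pre : IsPreconnected (ι '' S ∩ D) := hi ▸ (c₁.map (e G₁)).isPreconnected
  have hball := hB.ball ((hc.image _ cι.continuousOn).union' (hi ▸ c₁.nonempty.image _)
    hD.isPreconnected) c₂' fun n C d hC => by
      have tD := trivAll_ball hD C d (hC.mono subset_union_right)
      refine Triv.glue hC.closed hS.cpt.isClosed hD.isClosed
        (fun x hx => hC.cov (Or.inl hx.1)) pre (triv_of_section (g := ι) (h1 n _ _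
          (coc_comp hC cι fun x hx => Or.inl ⟨x, hx, rfl⟩)
          (triv_comp tD cι.continuousOn fun x hx => hD.subset ⟨x, hx, rfl⟩))
          continuous_fst.continuousOn (back S) ?_) tD
      rintro _ ⟨x, -, rfl⟩; rfl
  obtain ⟨g, hg, g1, g2⟩ := Ann83.ann_of_disc hball hD subset_union_right
    (disjoint_left.2 fun x hx hx' => disjoint_left.1 hd' hx' (hi ▸ ⟨image_mono s₂ hx', hx⟩))
  have e2 : (ι '' S ∪ D) \ (D \ ι '' G₁) = ι '' S := by
    rw [← hi]; ext x; simp only [mem_sdiff, mem_union, mem_inter_iff]; tauto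
  have e3 : ∀ A : Set E, Prod.fst '' (ι '' A) = A := fun A => (e A).symm.image_eq
  rw [e2] at hg
  have := hg.swap.map (e S).pg (e S).symm.injOn
  refine ⟨_, (e3 S) ▸ this, ?_, ?_⟩
  · refine (swap_img (fun y => (g y).1) (-1)).trans ?_
    rw [neg_neg, ← e3 G₁, ← g2, image_image]
  · rw [← e3 G₂, ← g1, ← swap_img, image_image]

/-- **(ANN-REC)** in any finite dimensional space -/
theorem Srf.annRec {S G₁ G₂ : Set E} {γ₁ γ₂ : ℝ → E} (h : Srf S (G₁ ∪ G₂)) (hd : Disjoint G₁ G₂)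
    (hc : IsPreconnected S) (h1 : H1Rel S G₁) (l₁ : Loop G₁ γ₁) (l₂ : Loop G₂ γ₂) :
    ∃ g, Ann S g ∧ (∀ s, g ![-1, s] = γ₁ s) ∧
      ((∀ s, g ![1, s] = γ₂ s) ∨ ∀ s, g ![1, s] = γ₂ (-s)) :=
  let ⟨_, hg, e₁, e₂⟩ := h.ann hd hc h1 l₁.circ l₂.circ
  Ann83.annf hg l₁ l₂ e₁ e₂

/-- **(ANN-REC)** -/
theorem annRec : Lev33.AnnRec := fun _ _ _ _ _ h hd hc => h.annRec hd hc.isPreconnected

end Crest.Agent.X212.Srf12
end

-- ▼ part X212/Srf12/Dic
section

/-!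
# X212 / SURF (helper12): germ cocycles and edge cocycles; non-separating circles
-/

set_option autoImplicit false

open Set Metric Topology Module

namespace Crest.Agent.X212.Srf12

open Crest.Agent.R096 Crest.Agent.R096.Ce_537 Crest.Agent.R096.Cb_609 Crest.Agent.R096.Coh_184
open Lev33 (Z2 Tr Prim)

theorem ev_cover {X ι : Type*} [TopologicalSpace X] [Finite ι] {C : ι → Set X}
    (hC : ∀ i, IsClosed (C i)) {T : Set X} (hT : T ⊆ ⋃ i, C i) {x : X} {p : X → Prop}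
    (h : ∀ i, x ∈ C i → ∀ᶠ y in 𝓝[C i ∩ T] x, p y) : ∀ᶠ y in 𝓝[T] x, p y := by
  have : ∀ i, ∀ᶠ y in 𝓝 x, y ∈ C i ∩ T → p y := fun i => by
    by_cases hx : x ∈ C i
    · exact eventually_nhdsWithin_iff.1 (h i hx)
    · filter_upwards [(hC i).isOpen_compl.mem_nhds hx] with y hy a using absurd a.1 hy
  rw [eventually_nhdsWithin_iff]
  filter_upwards [Filter.eventually_all.2 this] with y hy hyT
  obtain ⟨i, hi⟩ := mem_iUnion.1 (hT hyT)
  exact hy i ⟨hi, hyT⟩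

/-- differences of primitives on a finite closed cover -/
theorem tr_iff_triv {X ι A : Type*} [TopologicalSpace X] [Finite ι] [AddCommGroup A]
    {C : ι → Set X} (hC : ∀ i, IsClosed (C i)) {T : Set X} (hT : T ⊆ ⋃ i, C i)
    {c : X → X → Multiplicative A} {b : ι → X → Multiplicative A}
    (hb : ∀ i, Prim (C i ∩ T) c (b i)) {d : ι → ι → X → A}
    (hd : ∀ i j x, x ∈ C i → x ∈ C j → x ∈ T → d i j x = (b i x).toAdd - (b j x).toAdd) :
    Tr T c ↔ Triv C d T := by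
  constructor
  · rintro ⟨β, hβ⟩
    refine ⟨fun i x => (b i x * (β x)⁻¹).toAdd, fun i x hx => ?_, fun i j x hi hj hx => ?_⟩
    · filter_upwards [(hβ.mono inter_subset_right).lco (hb i) x hx] with y hy
      exact congrArg _ hy
    · rw [hd i j x hi hj hx]
      simp only [toAdd_mul, toAdd_inv]
      abel
  · rintro ⟨χ, h1, h2⟩
    rcases T.eq_empty_or_nonempty with rfl | ⟨x₀, h₀⟩
    · exact ⟨fun _ => 1, fun _ h => h.elim⟩
    have : Nonempty ι := ⟨(mem_iUnion.1 (hT h₀)).choose⟩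
    choose! k hk using fun x (hx : x ∈ T) => mem_iUnion.1 (hT hx)
    have key : ∀ i, ∀ x ∈ C i ∩ T, b (k x) x * (Multiplicative.ofAdd (χ (k x) x))⁻¹ =
        b i x * (Multiplicative.ofAdd (χ i x))⁻¹ := fun i x hx => by
      have := (h2 i (k x) x hx.1 (hk x hx.2) hx.2).trans (hd i (k x) x hx.1 (hk x hx.2) hx.2)
      refine Multiplicative.toAdd.injective ?_
      simp only [toAdd_mul, toAdd_inv, toAdd_ofAdd]
      rw [sub_eq_iff_eq_add.1 this]
      abel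
    refine ⟨fun x => b (k x) x * (Multiplicative.ofAdd (χ (k x) x))⁻¹,
      fun x hx => ev_cover hC hT fun i hi => ?_⟩
    filter_upwards [hb i x ⟨hi, hx⟩, h1 i x ⟨hi, hx⟩, self_mem_nhdsWithin] with y a1 a2 hy
    rw [key i y hy, key i x ⟨hi, hx⟩, a1, a2, mul_right_comm]

variable {E : Type*} [NormedAddCommGroup E] [NormedSpace ℝ E]
  {S dS : Set E} {I : Type*} [PartialOrder I] {dim : I → ℕ} {K : I → Set E}

theorem ind_face (C : Cplx S I dim K) {f : I} (hf : dim f = 2) (e : I) :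
    ind {e | dim e = 1 ∧ K e ⊆ ⋃ j ∈ {j | j < f}, K j} e = inc dim e f := by
  have h3 : e ∈ {e | dim e = 1 ∧ K e ⊆ ⋃ j ∈ {j | j < f}, K j} ↔ e < f ∧ dim f = dim e + 1 := by
    rw [hf, show (2 = dim e + 1) ↔ dim e = 1 by omega, ← sub_face_iff C]; exact and_comm
  unfold ind inc
  by_cases h4 : e < f ∧ dim f = dim e + 1
  · rw [if_pos h4, if_pos (h3.2 h4)]
  · rw [if_neg h4, if_neg (mt h3.1 h4)]

variable [Fintype I]

theorem SC.cl_of_pot (h : SC S dS I dim K) {κ : I → ZMod 2} {φ : I → I → ZMod 2}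
    (hφ : Pot dim κ φ) : Cl dim κ := fun f hf => by
  have := (ec_face h.cx hf).sum_ex h.cx (κ := κ)
    ⟨φ f, fun e he hs => hφ f e he ((sub_face_iff h.cx).1 hs).le⟩
  simpa only [ind_face h.cx hf] using this

/-- **germ cocycles come from edge cocycles** -/
theorem SC.of_germ (h : SC S dS I dim K) {c : E → E → Z2} (hc : Lev33.Coc S c) :
    ∃ κ, Cl dim κ ∧ ∀ T ⊆ S, Sub K T → (Tr T c ↔ Ex dim K κ T) := by
  have C := h.cx
  choose b hb using fun i => (Lev33.cvx_ball (C.isBall i)).tr c (hc.mono (C.sub i))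
  choose p hp using fun i => (C.isBall i).nonempty
  have key : ∀ i j m, m ≤ i → m ≤ j → ∀ x ∈ K m, ∀ y ∈ K m,
      (b i x).toAdd - (b j x).toAdd = (b i y).toAdd - (b j y).toAdd := by
    intro i j m hi hj x hx y hy
    rw [((hb j).mono (C.subset hj)).uniq ((hb i).mono (C.subset hi))
      (C.isBall m).isPreconnected hx hy]
    simp only [toAdd_mul, toAdd_inv]
    abel
  have hφ : Pot dim (fun e => cob dim (fun v => (b e (p v)).toAdd) e)
      fun i v => (b i (p v)).toAdd := fun i e de hi => by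
    obtain ⟨v, w, hne, hvw⟩ := two_vertices C de
    have lv := (hvw v).2 (Or.inl rfl)
    have lw := (hvw w).2 (Or.inr rfl)
    have := key i e e hi le_rfl _ (C.subset lv.le (hp v)) _ (C.subset lw.le (hp w))
    simp only [cob_eq C de lv lw hne]
    linear_combination zadd (b e (p w)).toAdd - zadd (b i (p w)).toAdd - this
  refine ⟨_, h.cl_of_pot hφ, fun T hT hs => (tr_iff_triv C.isClosed
    (fun x hx => mem_iUnion.2 (C.cover x (hT hx))) (fun i => (hb i).mono inter_subset_left)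
    fun i j x hi hj hx => ?_).trans (h.triv_iff hφ hT hs)⟩
  obtain ⟨m, hm⟩ := exists_carrier C (hT hx)
  obtain ⟨-, a, a'⟩ := vx_spec C i hm
  rw [dd, a' j]
  exact key i j m (C.opn_le hm hi) (C.opn_le hm hj) _ (C.subset a (hp _)) _ hm.1

/-- **edge cocycles give germ cocycles** -/
theorem SC.to_germ (h : SC S dS I dim K) {κ : I → ZMod 2} (hκ : Cl dim κ) :
    ∃ c : E → E → Z2, Lev33.Coc S c ∧ ∀ T ⊆ S, Sub K T → (Tr T c ↔ Ex dim K κ T) := by
  obtain ⟨φ, hφ⟩ := h.exists_pot hκ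
  obtain ⟨c, hc, h1⟩ := Lev33.coc_of_cech (h.coc hφ)
  exact ⟨c, hc, fun T hT hs => (h1 T hT).trans (h.triv_iff hφ hT hs)⟩

/-- a cocycle vanishes on the boundary -/
theorem SC.sum_bd (h : SC S dS I dim K) {κ : I → ZMod 2} (hκ : Cl dim κ) :
    ∑ e, ind {e | dim e = 1 ∧ K e ⊆ dS} e * κ e = 0 := by
  have h1 : ∀ e, ind {e | dim e = 1 ∧ K e ⊆ dS} e =
      ∑ g, inc dim e g * ind {f | dim f = 2} g := fun e => by
    by_cases he : dim e = 1
    · rw [h.sum_ind he]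
      by_cases a : K e ⊆ dS
      · simp [ind, he, a, (h.bds_all e he).2 a]
      · simp [ind, a, mt (h.bds_all e he).1 a]
    · rw [Finset.sum_eq_zero]
      · simp [ind, he]
      · intro g _
        by_cases a : dim g = 2
        · rw [inc, if_neg (fun b => he (by omega)), zero_mul]
        · simp [ind, a]
  simp only [h1, Finset.sum_mul]
  rw [Finset.sum_comm]
  refine Finset.sum_eq_zero fun g _ => ?_
  by_cases a : dim g = 2
  · simpa [ind, a] using hκ g a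
  · simp [ind, a]

/-- an edge circle that separates a closed surface bounds -/
theorem SC.nonsep (h : SC S ∅ I dim K) (hc : IsPreconnected S) {Γ : Set E} (hΓ : EC dim K Γ)
    (hn : ¬ ∃ Y ⊆ {f | dim f = 2}, Bds dim K Y Γ) : IsPreconnected (S \ Γ) := by
  have C := h.cx
  have off : ∀ i x, ¬ K i ⊆ Γ → Opn K i x → x ∈ S \ Γ := fun i x a hx =>
    ⟨C.sub i hx.1, fun b => a (hΓ.sub C i x hx b)⟩
  have up : ∀ u v : Set E, IsOpen u → IsOpen v → S \ Γ ⊆ u ∪ v → ¬ (S \ Γ ∩ (u ∩ v)).Nonempty →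
      ∀ j x y, ¬ K j ⊆ Γ → x ∈ K j → x ∈ u → Opn K j y → y ∈ u := by
    intro u v hu hv cov hd j x y a hx hxu hy
    obtain ⟨z, hz, hz'⟩ := opn_near C hx (hu.mem_nhds hxu)
    by_contra b
    obtain ⟨w, hw, c⟩ := preconnected_opn C j u v hu hv (fun w hw => cov (off j w a hw))
      ⟨z, hz', hz⟩ ⟨y, hy, (cov (off j y a hy)).resolve_left b⟩
    exact hd ⟨w, off j w a hw, c⟩
  have nf : ∀ f, dim f = 2 → ¬ K f ⊆ Γ := fun f hf a => by
    have := dim_le_one C hΓ.circ a; omega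
  intro u v hu hv cov ⟨x, hx, hxu⟩ ⟨y, hy, hyv⟩
  by_contra hd
  let Y : Set I := {f | dim f = 2 ∧ ∀ z, Opn K f z → z ∈ u}
  have inY : ∀ f, dim f = 2 → ∀ z ∈ K f, z ∈ u → f ∈ Y := fun f hf z hz a =>
    ⟨hf, fun w hw => up u v hu hv cov hd f z w (nf f hf) hz a hw⟩
  have outY : ∀ f, dim f = 2 → ∀ z ∈ K f, z ∈ v → f ∉ Y := fun f hf z hz a b => by
    obtain ⟨w, hw⟩ := exists_opn_pt C f
    exact hd ⟨w, off f w (nf f hf) hw, b.2 w hw, up v u hv hu (by rwa [union_comm])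
      (by rwa [inter_comm v]) f z w (nf f hf) hz a hw⟩
  have hZ : ∀ e, dim e = 1 → bdE Y e → K e ⊆ Γ := fun e he hb => by
    by_contra a
    obtain ⟨z, hz⟩ := exists_opn_pt C e
    rcases h.faces he with ⟨f, hf⟩ | ⟨f, f', hne, hf⟩
    · exact (h.bds_all e he).1 ((bdE_one hf).2 (h.dim_face he ((hf f).2 rfl))) hz.1
    · have l := (hf f).2 (Or.inl rfl)
      have l' := (hf f').2 (Or.inr rfl)
      refine (bdE_two hne hf).1 hb ?_
      rcases cov (off e z a hz) with b | b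
      · exact iff_of_true (inY f (h.dim_face he l) z (C.subset l.le hz.1) b)
          (inY f' (h.dim_face he l') z (C.subset l'.le hz.1) b)
      · exact iff_of_false (outY f (h.dim_face he l) z (C.subset l.le hz.1) b)
          (outY f' (h.dim_face he l') z (C.subset l'.le hz.1) b)
  obtain ⟨f, hf, hxf⟩ := h.exists_face hx.1
  obtain ⟨f', hf', hyf⟩ := h.exists_face hy.1
  refine outY f' hf' y hyf hyv (h.all_or_none hc (fun e₀ d₀ b₀ => hn ⟨Y, fun _ a => a.1,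
    fun e he => ⟨hZ e he, hΓ.minimal C hZ (fun v e hv he hve => h.no_free_end hv he hve) d₀ b₀ he⟩⟩)
    hf hf' (inY f hf x hxf hxu))

omit [Fintype I]

/-- cocycles on a sphere -/
theorem Sph.tr {G : Type*} [Group G] (h : Sph S) {c : E → E → G} (hc : Lev33.Coc S c) : Tr S c := by
  obtain ⟨e⟩ := h
  have hs : Gn_296.Hp 2 ⊆ sph 3 := fun _ a => a.1
  have hD := (Gn_296.ballPair_cube 2).ball₁.map (e.restrImage hs)
  obtain ⟨B, hB, hu, hi⟩ := Ann83.compl_disc ⟨e⟩ hD ((image_mono hs).trans e.image_eq.subset)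
  rw [← hu] at hc ⊢
  exact Tr.union (Lev33.IsClosed.relCl hD.isClosed _) (Lev33.IsClosed.relCl hB.isClosed _)
    ((Lev33.cvx_ball hD).tr c (hc.mono subset_union_left))
    ((Lev33.cvx_ball hB).tr c (hc.mono subset_union_right))
    (hi ▸ (circ_of_disc hD).isPreconnected)

variable [FiniteDimensional ℝ E]

/-- **NONSEP** -/
theorem Srf.nonsep {G : Type*} [Group G] (h : Srf S ∅) (hc : IsConnected S)
    (hn : ∃ c : E → E → G, Lev33.Coc S c ∧ ¬ Tr S c) : ∃ Γ γ, Loop Γ γ ∧ Γ ⊆ S ∧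
      IsPreconnected (S \ Γ) ∧ ∃ ω : E → E → Z2, Lev33.Coc S ω ∧ ¬ Tr Γ ω := by
  obtain ⟨Q, _, _, C, -, hC, -⟩ := h.exists_sc finite_empty (fun _ a => a.elim)
  have := Fintype.ofFinite Q
  obtain ⟨c, h1, h2⟩ := hn
  have := mt (fun a => (hC.sph hc a).tr h1) h2
  push Not at this
  obtain ⟨Γ, hΓ, hs, hb⟩ := this
  have hb' : ¬ ∃ Y ⊆ {f | C.dim f = 2}, Bds C.dim C.cell Y Γ := fun ⟨Y, a, b⟩ => hb Y a b
  obtain ⟨κ, hκ, h0⟩ := hC.bounds_or.resolve_left hb'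
  obtain ⟨ω, hω, h3⟩ := hC.to_germ hκ
  obtain ⟨γ, hγ⟩ := hΓ.circ.loop
  exact ⟨Γ, γ, hγ, hs, hC.nonsep hc.isPreconnected hΓ hb', ω, hω,
    fun a => h0 (hΓ.sum_ex hC.cx ((h3 Γ hs (hΓ.sub hC.cx)).1 a))⟩

/-- **BDSUM** -/
theorem Srf.bdsum {G₁ G₂ : Set E} (h : Srf S (G₁ ∪ G₂)) (hd : Disjoint G₁ G₂) (c₁ : Circ G₁)
    (c₂ : Circ G₂) {c : E → E → Z2} (hc : Lev33.Coc S c) (h1 : Tr G₁ c) : Tr G₂ c := by
  obtain ⟨Q, _, _, C, -, hC, hs⟩ := h.exists_sc (𝒜 := {G₁, G₂}) (toFinite _)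
    (by rintro _ (rfl | rfl); exacts [c₁.poly, c₂.poly])
  have := Fintype.ofFinite Q
  have s₁ : G₁ ⊆ S := subset_union_left.trans h.sub
  have s₂ : G₂ ⊆ S := subset_union_right.trans h.sub
  have u₁ := hs G₁ (Or.inl rfl)
  have u₂ := hs G₂ (Or.inr rfl)
  obtain ⟨κ, hκ, h2⟩ := hC.of_germ hc
  refine (h2 G₂ s₂ u₂).2 ((ec_of_sub hC.cx c₂ s₂ u₂).ex hC.cx ?_)
  have a1 := (ec_of_sub hC.cx c₁ s₁ u₁).sum_ex hC.cx ((h2 G₁ s₁ u₁).1 h1)
  rw [← hC.sum_bd hκ, ← zero_add (∑ _, _), ← a1, ← Finset.sum_add_distrib]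
  refine Finset.sum_congr rfl fun e _ => ?_
  have h3 := sub_union_iff hC.cx u₁ u₂ (i := e)
  have h4 : ¬ (C.cell e ⊆ G₁ ∧ C.cell e ⊆ G₂) := fun a =>
    let ⟨_, hx⟩ := (hC.cx.isBall e).nonempty
    disjoint_left.1 hd (a.1 hx) (a.2 hx)
  rw [← add_mul]
  congr 1
  by_cases d : C.dim e = 1 <;> by_cases b₁ : C.cell e ⊆ G₁ <;> by_cases b₂ : C.cell e ⊆ G₂ <;>
    simp [ind, d, h3, b₁, b₂] at h4 ⊢

end Crest.Agent.X212.Srf12
end

-- ▼ part X212/Tor42/Cut
section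

/-!
# X212 / T layer, TOR (helper42), part 1: cutting a closed surface along an annulus
-/

set_option autoImplicit false
set_option linter.unusedSectionVars false

open Set Filter Topology Metric

namespace Crest.Agent.X212.Tor42

open Crest.Agent.R096 Crest.Agent.R096.Ce_537 Crest.Agent.X212.Prd34 Crest.Agent.X212.Srf12
  Crest.Agent.X212.Lev33 Crest.Agent.X212.Lad50

variable {E : Type*} [NormedAddCommGroup E] [NormedSpace ℝ E] [FiniteDimensional ℝ E]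
  {S A : Set E} {g : P → E}

lemma eta (y : P) : ![y 0, y 1] = y := by ext i; fin_cases i <;> rfl

/-- the band over `I` -/
def bnd (g : P → E) (I : Set ℝ) : Set E := g '' {y | y 0 ∈ I}

lemma cont_of_pl (h : ∀ R : ℝ, PLOn g {y | |y 0| ≤ 1 ∧ |y 1| ≤ R}) :
    ContinuousOn g {y | |y 0| ≤ 1} := fun y hy =>
  ((h (|y 1| + 1)).1 y ⟨hy, by linarith⟩).mono_of_mem_nhdsWithin (by
    have : ∀ᶠ z : P in 𝓝 y, |z 1| < |y 1| + 1 :=
      (isOpen_lt (by fun_prop) continuous_const).mem_nhds (lt_add_one |y 1|)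
    filter_upwards [self_mem_nhdsWithin, mem_nhdsWithin_of_mem_nhds this] with z a b
    exact ⟨a, b.le⟩)

lemma mem_bnd (h : Ann A g) {I : Set ℝ} (hI : ∀ t ∈ I, |t| ≤ 1) {y : P} (hy : |y 0| ≤ 1) :
    g y ∈ bnd g I ↔ y 0 ∈ I :=
  ⟨fun ⟨z, hz, e⟩ => ((h.fib z y (hI _ hz) hy).1 e).1 ▸ hz, fun k => ⟨y, k, rfl⟩⟩

lemma bnd_sub (h : Ann A g) {I : Set ℝ} (hI : ∀ t ∈ I, |t| ≤ 1) : bnd g I ⊆ A :=
  h.img ▸ image_mono fun _ hy => hI _ hy

lemma bnd_mono {I J : Set ℝ} (h : I ⊆ J) : bnd g I ⊆ bnd g J := image_mono fun _ hy => h hy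

lemma bnd_cpt (h : Ann A g) {a b : ℝ} (ha : -1 ≤ a) (hb : b ≤ 1) : IsCompact (bnd g (Icc a b)) := by
  have : bnd g (Icc a b) = g '' Icc ![a, 0] ![b, 1] := by
    refine Subset.antisymm ?_ (image_mono fun y hy => ⟨hy.1 0, hy.2 0⟩)
    rintro _ ⟨y, hy, rfl⟩
    have k : |y 0| ≤ 1 := abs_le.2 ⟨ha.trans hy.1, hy.2.trans hb⟩
    refine ⟨![y 0, Int.fract (y 1)], ⟨fun i => ?_, fun i => ?_⟩,
      (h.fib ![y 0, Int.fract (y 1)] y k k).2 ⟨rfl, -⌊y 1⌋, by simp⟩⟩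
    · fin_cases i
      exacts [hy.1, Int.fract_nonneg _]
    · fin_cases i
      exacts [hy.2, (Int.fract_lt_one _).le]
  rw [this]
  exact isCompact_Icc.image_of_continuousOn ((cont_of_pl h.pl).mono fun y hy =>
    abs_le.2 ⟨ha.trans (hy.1 0), (hy.2 0).trans hb⟩)

lemma bnd_pre (h : Ann A g) {I : Set ℝ} (hI : ∀ t ∈ I, |t| ≤ 1) (hc : Convex ℝ I) :
    IsPreconnected (bnd g I) :=
  (hc.linear_preimage (LinearMap.proj 0 : P →ₗ[ℝ] ℝ)).isPreconnected.image _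
    ((cont_of_pl h.pl).mono fun _ hy => hI _ hy)

lemma inj_near (h : Ann A g) {W : Set P} (hW : ∀ y ∈ W, |y 0| ≤ 1) {s : ℝ}
    (hs : ∀ y ∈ W, |y 1 - s| < 1 / 2) : InjOn g W := fun y hy z hz e => by
  obtain ⟨e0, m, hm⟩ := (h.fib y z (hW y hy) (hW z hz)).1 e
  have a := abs_lt.1 (hs y hy)
  have b := abs_lt.1 (hs z hz)
  have : |(m : ℝ)| < 1 := by rw [← hm, abs_lt]; constructor <;> linarith
  have : m = 0 := Int.abs_lt_one_iff.1 (by exact_mod_cast this)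
  rw [this, Int.cast_zero, sub_eq_zero] at hm
  rw [← eta y, ← eta z, e0, hm]

/-- the annulus is open in the surface -/
lemma opn {dS : Set E} (hS : Srf S dS) (h : Ann A g) (hs : A ⊆ S) {w : P} (hw : |w 0| < 1)
    {W : Set P} (hW : W ∈ 𝓝 w) : g '' W ∈ 𝓝[S] (g w) := by
  have o : IsOpen (interior W ∩ {y : P | |y 0| < 1 ∧ |y 1 - w 1| < 1 / 2}) :=
    isOpen_interior.inter (IsOpen.and (isOpen_lt (by fun_prop) continuous_const)
      (isOpen_lt (by fun_prop) continuous_const))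
  exact mem_of_superset (hS.of_inj finrank_two o ((cont_of_pl h.pl).mono fun y hy => hy.2.1.le)
    (inj_near h (fun y hy => hy.2.1.le) fun y hy => hy.2.2)
    (fun y hy => hs (h.img ▸ ⟨y, hy.2.1.le, rfl⟩))
    ⟨mem_interior_iff_mem_nhds.2 hW, hw, by simp⟩).2
    (image_mono (inter_subset_left.trans interior_subset))

/-- small discs at an interior point -/
lemma small {dS : Set E} (hS : Srf S dS) {x : E} (hx : x ∈ S) (hx' : x ∉ dS) {W : Set E}
    (hW : W ∈ 𝓝 x) : ∃ D Γ, IsBall 2 D Γ ∧ D ⊆ S ∩ W ∧ D ∈ 𝓝[S] x ∧ x ∉ Γ := by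
  obtain ⟨D, Γ, ⟨a, ha⟩, h2, h3, h4⟩ := hS.loc x hx
  have h1 : x ∈ a.f '' ball 0 1 := by
    rw [← Cb_609.diff_eq_image a ha]
    exact ⟨mem_of_mem_nhdsWithin hx h3, fun k => hx' (h4.2 k)⟩
  obtain ⟨w, hw, rfl⟩ := h1
  have hc : cube 2 ∈ 𝓝 w := mem_of_superset (isOpen_ball.mem_nhds hw) ball_subset_closedBall
  obtain ⟨r, hr, hb⟩ := Metric.nhds_basis_closedBall.mem_iff.1
    (inter_mem hc ((a.pf.1.continuousAt hc) hW))
  have m : ∀ y ∈ cube 2, w + r • y ∈ closedBall w r := fun y hy => by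
    rw [mem_closedBall, dist_eq_norm, add_sub_cancel_left, norm_smul, Real.norm_eq_abs,
      abs_of_pos hr]
    nlinarith [mem_closedBall_zero_iff.1 hy]
  have inj : InjOn (fun y => a.f (w + r • y)) (cube 2) := fun y hy z hz e =>
    smul_right_injective _ hr.ne' (add_left_cancel (a.injOn (hb (m y hy)).1 (hb (m z hz)).1 e))
  have hD := (isBall_cube 2).image_injOn (f := fun y => a.f (w + r • y))
    (a.pf.comp (pl_add (plOn_const _ _) (pl_smul _ (plOn_id _))) fun y hy => (hb (m y hy)).1) inj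
  have s1 : (fun y => a.f (w + r • y)) '' cube 2 ⊆ S ∩ W := by
    rintro _ ⟨y, hy, rfl⟩
    exact ⟨h2 (a.mf (hb (m y hy)).1), (hb (m y hy)).2⟩
  have n : a.f w ∉ (fun y => a.f (w + r • y)) '' sph 2 := by
    rintro ⟨y, hy, e⟩
    have : y = 0 := inj (sph_subset_cube hy) (zero_mem_cube 2) (by simpa using e)
    simp [this, sph] at hy
  exact ⟨_, _, hD, s1, (hS.disc_int hD (fun y hy => (s1 hy).1) ⟨0, zero_mem_cube 2, by simp⟩ n).2, n⟩

lemma half (h : Ann A g) : Ann (bnd g (Icc (-(1 / 2)) (1 / 2))) fun y => g ![y 0 / 2, y 1] := by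
  have k : ∀ y : P, |y 0| ≤ 1 → |y 0 / 2| ≤ 1 := fun y hy => by
    rw [abs_le] at *; constructor <;> linarith [hy.1, hy.2]
  refine ⟨fun R => (h.pl R).comp (pl_vec2 ((pl_mul (1 / 2) (pl_coord 0 _)).congr
    fun y _ => by ring) (pl_coord 1 _)) fun y hy => ⟨k y hy.1, hy.2⟩, Subset.antisymm ?_ ?_,
    fun y y' h1 h2 => (h.fib _ _ (k y h1) (k y' h2)).trans (and_congr_left' ?_)⟩
  · rintro _ ⟨y, hy, rfl⟩
    have := abs_le.1 (show |y 0| ≤ 1 from hy)
    exact ⟨_, ⟨show _ ≤ y 0 / 2 by linarith, show y 0 / 2 ≤ _ by linarith⟩, rfl⟩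
  · rintro _ ⟨y, hy, rfl⟩
    refine ⟨![2 * y 0, y 1], abs_le.2 ⟨show _ ≤ 2 * y 0 by linarith [hy.1],
      show 2 * y 0 ≤ _ by linarith [hy.2]⟩, congrArg g ?_⟩
    ext i; fin_cases i <;> simp
  · show y 0 / 2 = y' 0 / 2 ↔ _
    constructor <;> intro e <;> linarith

lemma half_end (g : P → E) (σ : ℝ) :
    (fun y : P => g ![y 0 / 2, y 1]) '' {y | y 0 = σ} = bnd g {σ / 2} := by
  refine Subset.antisymm ?_ ?_
  · rintro _ ⟨y, rfl, rfl⟩
    exact ⟨_, rfl, rfl⟩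
  · rintro _ ⟨y, hy, rfl⟩
    refine ⟨![σ, y 1], rfl, congrArg g ?_⟩
    ext i; fin_cases i
    · exact (hy : y 0 = σ / 2).symm
    · rfl

lemma abs_Ioo {t : ℝ} (h : t ∈ Ioo (-(1 / 2) : ℝ) (1 / 2)) : |t| ≤ 1 :=
  abs_le.2 ⟨by linarith [h.1], by linarith [h.2]⟩

lemma abs_Icc {t : ℝ} (h : t ∈ Icc (-(1 / 2) : ℝ) (1 / 2)) : |t| ≤ 1 :=
  abs_le.2 ⟨by linarith [h.1], by linarith [h.2]⟩

lemma abs_pt {σ : ℝ} (hσ : σ = 1 ∨ σ = -1) {t : ℝ} (h : t ∈ ({σ / 2} : Set ℝ)) : |t| ≤ 1 := by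
  rw [(h : t = σ / 2), abs_le]
  rcases hσ with rfl | rfl <;> norm_num

/-- half discs at the new boundary -/
lemma half_disc (hS : Srf S ∅) (h : Ann A g) (hs : A ⊆ S) {σ : ℝ} (hσ : σ = 1 ∨ σ = -1) {x : E}
    (hx : x ∈ bnd g {σ / 2}) : ∃ D Γ, IsBall 2 D Γ ∧ D ⊆ S \ bnd g (Ioo (-(1 / 2)) (1 / 2)) ∧
      D ∈ 𝓝[S \ bnd g (Ioo (-(1 / 2)) (1 / 2))] x ∧ x ∈ Γ := by
  obtain ⟨w, hw, rfl⟩ := hx
  have hw : w 0 = σ / 2 := hw
  have σ2 : σ * σ = 1 := by rcases hσ with rfl | rfl <;> norm_num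
  let f : P → P := fun y => ![σ * (5 / 8 + 1 / 8 * y 0), w 1 + 1 / 8 * y 1]
  have b : ∀ y ∈ cube 2, (-1 ≤ y 0 ∧ y 0 ≤ 1) ∧ -1 ≤ y 1 ∧ y 1 ≤ 1 := fun y hy =>
    ⟨abs_le.1 (mem_cube.1 hy 0), abs_le.1 (mem_cube.1 hy 1)⟩
  have m : ∀ y ∈ cube 2, |f y 0| ≤ 1 := fun y hy => by
    show |σ * (5 / 8 + 1 / 8 * y 0)| ≤ 1
    rw [abs_le]
    rcases hσ with rfl | rfl <;> constructor <;> linarith [b y hy]
  have m1 : ∀ y ∈ cube 2, |f y 1 - w 1| < 1 / 2 := fun y hy => by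
    show |w 1 + 1 / 8 * y 1 - w 1| < 1 / 2
    rw [abs_lt]; constructor <;> linarith [b y hy]
  have hD := (isBall_cube 2).image_injOn (f := fun y => g (f y))
    ((h.pl (|w 1| + 1)).comp (pl_vec2 (pl_mul _ (pl_add (plOn_const _ _) (pl_mul _ (pl_coord 0 _))))
      (pl_add (plOn_const _ _) (pl_mul _ (pl_coord 1 _)))) fun y hy => ⟨m y hy, by
        have := abs_lt.1 (m1 y hy)
        rw [abs_le]; constructor <;> linarith [le_abs_self (w 1), neg_abs_le (w 1)]⟩)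
    fun y hy z hz e => by
      have := inj_near h (W := f '' cube 2) (s := w 1) (forall_mem_image.2 fun _ k => m _ k)
        (forall_mem_image.2 fun _ k => m1 _ k) ⟨y, hy, rfl⟩ ⟨z, hz, rfl⟩ e
      have e0 : σ * (5 / 8 + 1 / 8 * y 0) = σ * (5 / 8 + 1 / 8 * z 0) := congrFun this 0
      have e1 : w 1 + 1 / 8 * y 1 = w 1 + 1 / 8 * z 1 := congrFun this 1
      rw [← eta y, ← eta z, show y 1 = z 1 by linarith, show y 0 = z 0 by
        rcases hσ with rfl | rfl <;> linarith]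
  refine ⟨_, _, hD, ?_, ?_, ![-1, 0], mem_sph2.2 ⟨mem_cube.2 fun i => ?_, Or.inl (by simp)⟩,
    congrArg g ?_⟩
  · rintro _ ⟨y, hy, rfl⟩
    refine ⟨hs (h.img ▸ ⟨_, m y hy, rfl⟩), fun k => ?_⟩
    have : σ * (5 / 8 + 1 / 8 * y 0) ∈ Ioo (-(1 / 2) : ℝ) (1 / 2) :=
      (mem_bnd h (fun _ => abs_Ioo) (m y hy)).1 k
    rcases hσ with rfl | rfl <;> linarith [this.1, this.2, b y hy]
  · have k : |w 0| < 1 := by rw [hw, abs_lt]; rcases hσ with rfl | rfl <;> norm_num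
    filter_upwards [nhdsWithin_mono _ sdiff_subset (opn hS h hs k
      (closedBall_mem_nhds w (by norm_num : (0 : ℝ) < 1 / 8))), self_mem_nhdsWithin]
    rintro _ ⟨y, hy, rfl⟩ hn
    rw [mem_closedBall, dist_pi_le_iff (by norm_num)] at hy
    have a0 := abs_le.1 (show |y 0 - w 0| ≤ 1 / 8 from hy 0)
    have a1 := abs_le.1 (show |y 1 - w 1| ≤ 1 / 8 from hy 1)
    have a2 : ¬ (-(1 / 2) < y 0 ∧ y 0 < 1 / 2) := fun q => hn.2 ⟨y, q, rfl⟩
    rw [not_and_or, not_lt, not_lt] at a2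
    refine ⟨![8 * σ * y 0 - 5, 8 * (y 1 - w 1)], mem_cube.2 fun i => ?_, congrArg g ?_⟩
    · fin_cases i
      · show |8 * σ * y 0 - 5| ≤ 1
        rw [abs_le]
        rcases hσ with rfl | rfl <;> rcases a2 with a2 | a2 <;> constructor <;> linarith
      · show |8 * (y 1 - w 1)| ≤ 1
        rw [abs_le]; constructor <;> linarith
    · ext i; fin_cases i
      · show σ * (5 / 8 + 1 / 8 * (8 * σ * y 0 - 5)) = y 0
        linear_combination y 0 * σ2
      · show w 1 + 1 / 8 * (8 * (y 1 - w 1)) = y 1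
        ring
  · fin_cases i <;> simp
  · ext i; fin_cases i
    · show σ * (5 / 8 + 1 / 8 * (-1)) = w 0
      rw [hw]; ring
    · simp [f]

lemma split (h : Ann A g) {x : E} (hx : x ∈ bnd g (Icc (-(1 / 2)) (1 / 2)))
    (hn : x ∉ bnd g (Ioo (-(1 / 2)) (1 / 2))) : x ∈ bnd g {1 / 2} ∪ bnd g {-1 / 2} := by
  obtain ⟨y, hy, rfl⟩ := hx
  have _ := h
  rcases hy.1.eq_or_lt with a | a
  · exact Or.inr ⟨y, show y 0 = -1 / 2 by linarith, rfl⟩
  rcases hy.2.eq_or_lt with b | b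
  · exact Or.inl ⟨y, b, rfl⟩
  · exact (hn ⟨y, ⟨a, b⟩, rfl⟩).elim

lemma isClosed_rest (hS : Srf S ∅) (h : Ann A g) (hs : A ⊆ S) :
    IsClosed (S \ bnd g (Ioo (-(1 / 2)) (1 / 2))) := by
  refine isClosed_of_closure_subset fun x hx => ⟨closure_minimal sdiff_subset hS.cpt.isClosed hx, ?_⟩
  rintro ⟨w, hw, rfl⟩
  have := opn hS h hs (w := w) (abs_lt.2 ⟨by linarith [hw.1], by linarith [hw.2]⟩)
    ((isOpen_Ioo.preimage (continuous_apply 0)).mem_nhds hw)
  obtain ⟨O, hO, k⟩ := mem_nhdsWithin_iff_exists_mem_nhds_inter.1 this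
  obtain ⟨z, h1, h2⟩ := mem_closure_iff_nhds.1 hx O hO
  exact h2.2 (k ⟨h1, h2.1⟩)

lemma end_sub (h : Ann A g) (hs : A ⊆ S) {σ : ℝ} (hσ : σ = 1 ∨ σ = -1) :
    bnd g {σ / 2} ⊆ S \ bnd g (Ioo (-(1 / 2)) (1 / 2)) := by
  rintro _ ⟨y, hy, rfl⟩
  refine ⟨hs (h.img ▸ ⟨y, abs_pt hσ hy, rfl⟩), fun k => ?_⟩
  have := (mem_bnd h (fun _ => abs_Ioo) (abs_pt hσ hy)).1 k
  rw [(hy : y 0 = σ / 2)] at this
  rcases hσ with rfl | rfl <;> linarith [this.1, this.2]

lemma end_sub' {σ : ℝ} (hσ : σ = 1 ∨ σ = -1) : bnd g {σ / 2} ⊆ bnd g (Icc (-(1 / 2)) (1 / 2)) :=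
  bnd_mono fun t ht => by
    rw [(ht : t = σ / 2)]
    rcases hσ with rfl | rfl <;> constructor <;> norm_num

lemma srf_rest (hS : Srf S ∅) (h : Ann A g) (hs : A ⊆ S) :
    Srf (S \ bnd g (Ioo (-(1 / 2)) (1 / 2))) (bnd g {1 / 2} ∪ bnd g {-1 / 2}) := by
  refine ⟨hS.cpt.of_isClosed_subset (isClosed_rest hS h hs) sdiff_subset,
    union_subset (end_sub h hs (Or.inl rfl)) (end_sub h hs (Or.inr rfl)), fun x hx => ?_⟩
  by_cases k : x ∈ bnd g {1 / 2} ∪ bnd g {-1 / 2}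
  · obtain ⟨D, Γ, a, b, c, d⟩ : ∃ D Γ, IsBall 2 D Γ ∧ D ⊆ S \ bnd g (Ioo (-(1 / 2)) (1 / 2)) ∧
        D ∈ 𝓝[S \ bnd g (Ioo (-(1 / 2)) (1 / 2))] x ∧ x ∈ Γ :=
      k.elim (half_disc hS h hs (Or.inl rfl)) (half_disc hS h hs (Or.inr rfl))
    exact ⟨D, Γ, a, b, c, iff_of_true k d⟩
  · obtain ⟨D, Γ, a, b, c, d⟩ := small hS hx.1 (fun q => q) ((bnd_cpt h (a := -(1 / 2)) (b := 1 / 2)
      (by norm_num) (by norm_num)).isClosed.isOpen_compl.mem_nhds fun q => k (split h q hx.2))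
    exact ⟨D, Γ, a, fun y hy => ⟨(b hy).1, fun q => (b hy).2 (bnd_mono Ioo_subset_Icc_self q)⟩,
      nhdsWithin_mono _ sdiff_subset c, iff_of_false k d⟩

lemma conn_rest (hS : Srf S ∅) (h : Ann A g) (hs : A ⊆ S) (hc : IsPreconnected (S \ bnd g {0})) :
    IsPreconnected (S \ bnd g (Ioo (-(1 / 2)) (1 / 2))) := by
  classical
  set B := S \ bnd g (Ioo (-(1 / 2)) (1 / 2)) with hB
  refine isPreconnected_of_forall_constant fun f hf x hx y hy => ?_
  have lf : LCo B f := fun z hz =>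
    ((hf z hz).eventually (mem_nhds_discrete.2 rfl)).mono fun _ e => e.symm
  have i1 : ∀ t ∈ Icc (0 : ℝ) (1 / 2), |t| ≤ 1 := fun t ht => abs_Icc ⟨by linarith [ht.1], ht.2⟩
  have i2 : ∀ t ∈ Icc (-(1 / 2) : ℝ) 0, |t| ≤ 1 := fun t ht => abs_Icc ⟨ht.1, by linarith [ht.2]⟩
  let F : E → Bool := fun z =>
    if z ∈ B then f z else if z ∈ bnd g (Icc 0 (1 / 2)) then f (g ![1 / 2, 0]) else f (g ![-1 / 2, 0])
  have ce : ∀ σ : ℝ, σ = 1 ∨ σ = -1 → ∀ z ∈ bnd g {σ / 2}, f z = f (g ![σ / 2, 0]) :=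
    fun σ hσ z hz => (lf.mono (end_sub h hs hσ)).eq (bnd_pre h (fun _ => abs_pt hσ)
      (convex_singleton _)) hz ⟨_, rfl, rfl⟩
  have c1 : ∀ z ∈ bnd g (Icc 0 (1 / 2)), F z = f (g ![1 / 2, 0]) := fun z hz => by
    simp only [F, if_pos hz]
    split_ifs with k
    · obtain ⟨w, hw, rfl⟩ := hz
      refine ce 1 (Or.inl rfl) _ ⟨w, le_antisymm hw.2 (not_lt.1 fun q => k.2 ⟨w, ⟨?_, q⟩, rfl⟩), rfl⟩
      linarith [hw.1]
    · rfl
  have c2 : ∀ z ∈ bnd g (Icc (-(1 / 2)) 0) \ bnd g {0}, F z = f (g ![-1 / 2, 0]) := by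
    rintro _ ⟨⟨w, hw, rfl⟩, hn⟩
    have lt : w 0 < 0 := lt_of_le_of_ne hw.2 fun e => hn ⟨w, e, rfl⟩
    have : g w ∉ bnd g (Icc 0 (1 / 2)) := fun q => by
      linarith [((mem_bnd h i1 (i2 _ hw)).1 q).1]
    simp only [F, if_neg this]
    split_ifs with k
    · refine ce (-1) (Or.inr rfl) _ ⟨w, le_antisymm (not_lt.1 fun q => k.2 ⟨w, ⟨?_, ?_⟩, rfl⟩)
        (by linarith [hw.1]), rfl⟩ <;> linarith
    · rfl
  have k1 := (bnd_cpt h (a := 0) (b := 1 / 2) (by norm_num) (by norm_num)).isClosed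
  have k2 := (bnd_cpt h (a := -(1 / 2)) (b := 0) (by norm_num) (by norm_num)).isClosed
  have k3 := isClosed_rest hS h hs
  have lF : LCo (S \ bnd g {0}) F := fun z hz => by
    have near : ∀ C : Set E, IsClosed C → ∀ᶠ w in 𝓝[S \ bnd g {0}] z, w ∈ C → z ∈ C := fun C hC => by
      by_cases q : z ∈ C
      · exact Eventually.of_forall fun _ _ => q
      · filter_upwards [mem_nhdsWithin_of_mem_nhds (hC.isOpen_compl.mem_nhds q)] with w a b
        exact (a b).elim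
    have nB : ∀ᶠ w in 𝓝[S \ bnd g {0}] z, z ∈ B → w ∈ B → f w = f z := by
      by_cases q : z ∈ B
      · filter_upwards [mem_nhdsWithin_of_mem_nhds (eventually_nhdsWithin_iff.1 (lf z q))]
          with w a _ b using a b
      · exact Eventually.of_forall fun _ a => (q a).elim
    filter_upwards [near _ k1, near _ k2, near _ k3, nB, self_mem_nhdsWithin] with w a b c d e
    by_cases q : w ∈ B
    · simp only [F, if_pos q, if_pos (show z ∈ B from c q), d (c q) q]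
    · obtain ⟨v, hv, rfl⟩ : w ∈ bnd g (Ioo (-(1 / 2)) (1 / 2)) := by_contra fun r => q ⟨e.1, r⟩
      rcases le_total 0 (v 0) with r | r
      · have : g v ∈ bnd g (Icc 0 (1 / 2)) := ⟨v, ⟨r, hv.2.le⟩, rfl⟩
        rw [c1 _ this, c1 _ (a this)]
      · have : g v ∈ bnd g (Icc (-(1 / 2)) 0) := ⟨v, ⟨hv.1.le, r⟩, rfl⟩
        rw [c2 _ ⟨this, e.2⟩, c2 _ ⟨b this, hz.2⟩]
  have sub : B ⊆ S \ bnd g {0} := fun z hz => ⟨hz.1, fun q => hz.2 (bnd_mono (fun t ht => by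
    rw [(ht : t = 0)]; constructor <;> norm_num) q)⟩
  simpa only [F, if_pos hx, if_pos hy] using lF.eq hc (sub hx) (sub hy)

/-- **(CUT)** -/
theorem cut (hS : Srf S ∅) (h : Ann A g) (hs : A ⊆ S)
    (hc : IsPreconnected (S \ g '' {y | y 0 = 0})) :
    ∃ A' B g', Ann A' g' ∧ A' ∪ B = S ∧ A' ∩ B = g' '' {y | y 0 = 1} ∪ g' '' {y | y 0 = -1} ∧
      Srf B (g' '' {y | y 0 = 1} ∪ g' '' {y | y 0 = -1}) ∧ IsConnected B ∧
      g '' {y | y 0 = 0} ⊆ A' := by
  refine ⟨_, S \ bnd g (Ioo (-(1 / 2)) (1 / 2)), _, half h, ?_, ?_, ?_,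
    ⟨⟨_, end_sub h hs (Or.inl rfl) ⟨![1 / 2, 0], rfl, rfl⟩⟩, conn_rest hS h hs hc⟩,
    bnd_mono (I := {0}) fun t ht => by rw [(ht : t = 0)]; constructor <;> norm_num⟩
  · refine Subset.antisymm (union_subset ((bnd_sub h fun _ => abs_Icc).trans hs) sdiff_subset)
      fun x hx => ?_
    by_cases k : x ∈ bnd g (Ioo (-(1 / 2)) (1 / 2))
    · exact Or.inl (bnd_mono Ioo_subset_Icc_self k)
    · exact Or.inr ⟨hx, k⟩
  · rw [half_end, half_end]
    exact Subset.antisymm (fun x hx => split h hx.1 hx.2.2) (union_subset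
      (subset_inter (end_sub' (Or.inl rfl)) (end_sub h hs (Or.inl rfl)))
      (subset_inter (end_sub' (Or.inr rfl)) (end_sub h hs (Or.inr rfl))))
  · rw [half_end, half_end]; exact srf_rest hS h hs

end Crest.Agent.X212.Tor42
end

-- ▼ part X212/Tor42/Coh
section

/-!
# X212 / T layer, TOR (helper42), part 2: cocycles on a surface with acyclic `ℤ²`-cover
-/

set_option autoImplicit false

open Set Filter Topology Metric

namespace Crest.Agent.X212.Tor42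

open Crest.Agent.R096 Crest.Agent.R096.Ce_537 Crest.Agent.X212.Prd34 Crest.Agent.X212.Srf12
  Crest.Agent.X212.Lev33

variable {H : V → V} {S : Set V}

/-- the generators -/
def e0 : V := ![1, 0, 0]
def e1 : V := ![0, 1, 0]

lemma vec_mem (m n : ℤ) : (m : ℝ) • e0 + (n : ℝ) • e1 ∈ lat {0, 1} := fun i => by
  fin_cases i
  · exact ⟨fun _ => ⟨m, by simp [e0, e1]⟩, fun k => absurd (by decide) k⟩
  · exact ⟨fun _ => ⟨n, by simp [e0, e1]⟩, fun k => absurd (by decide) k⟩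
  · exact ⟨fun k => absurd k (by decide), fun _ => by simp [e0, e1]⟩

lemma e0_mem : e0 ∈ lat {0, 1} := by simpa using vec_mem 1 0
lemma e1_mem : e1 ∈ lat {0, 1} := by simpa using vec_mem 0 1

lemma eq_vec {l : V} (hl : l ∈ lat {0, 1}) : ∃ m n : ℤ, l = (m : ℝ) • e0 + (n : ℝ) • e1 := by
  obtain ⟨m, hm⟩ := (hl 0).1 (by decide)
  obtain ⟨n, hn⟩ := (hl 1).1 (by decide)
  have := (hl 2).2 (by decide)
  refine ⟨m, n, funext fun i => ?_⟩
  fin_cases i <;> simp [e0, e1, hm, hn, this]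

/-- the class of a cocycle -/
def Cls (H : V → V) (S : Set V) (c : V → V → Z2) (a : Z2 × Z2) : Prop :=
  ∃ b, Prim (H ⁻¹' S) (fun x y => c (H x) (H y)) b ∧ ∀ z ∈ H ⁻¹' S,
    b (z + e0) = a.1 * b z ∧ b (z + e1) = a.2 * b z

lemma Cls.mul {c c' : V → V → Z2} {a a' : Z2 × Z2} (h : Cls H S c a) (h' : Cls H S c' a') :
    Cls H S (fun x y => c x y * c' x y) (a * a') := by
  obtain ⟨b, h1, h2⟩ := h
  obtain ⟨b', h1', h2'⟩ := h'
  refine ⟨_, h1.mul h1', fun z hz => ⟨?_, ?_⟩⟩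
  · rw [(h2 z hz).1, (h2' z hz).1]; exact mul_mul_mul_comm _ _ _ _
  · rw [(h2 z hz).2, (h2' z hz).2]; exact mul_mul_mul_comm _ _ _ _

lemma mem_add (h : Per {0, 1} H) {z l : V} (hz : z ∈ H ⁻¹' S) (hl : l ∈ lat {0, 1}) :
    z + l ∈ H ⁻¹' S := by rwa [mem_preimage, per_add h z hl]

lemma exists_cls (h : Per {0, 1} H) (hc : IsConnected (H ⁻¹' S)) {c : V → V → Z2}
    (ht : Tr (H ⁻¹' S) fun x y => c (H x) (H y)) : ∃ a, Cls H S c a := by
  obtain ⟨b, hb⟩ := ht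
  obtain ⟨z0, h0⟩ := hc.1
  have key : ∀ l ∈ lat {0, 1}, ∀ z ∈ H ⁻¹' S, b (z + l) = b (z0 + l) * (b z0)⁻¹ * b z :=
    fun l hl z hz => by
    have := hb.comp (f := fun z => z + l) (T := H ⁻¹' S) (by fun_prop) fun z hz => mem_add h hz hl
    simp only [per_add h _ hl] at this
    exact hb.uniq this hc.2 h0 hz
  exact ⟨(_, _), b, hb, fun z hz => ⟨key _ e0_mem z hz, key _ e1_mem z hz⟩⟩

lemma Cls.tr (h : Per {0, 1} H) (hr : S ⊆ range H) {c : V → V → Z2} (hc : Cls H S c 1) :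
    Tr S c := by
  obtain ⟨b, hb, k⟩ := hc
  have key : ∀ e ∈ lat {0, 1}, (∀ z ∈ H ⁻¹' S, b (z + e) = b z) → ∀ m : ℤ, (m : ℝ) • e ∈ lat {0, 1} ∧
      ∀ z ∈ H ⁻¹' S, b (z + (m : ℝ) • e) = b z := fun e he hb m => by
    induction m using Int.induction_on with
    | zero => simpa using lat_zero
    | succ n ih =>
      push_cast at ih ⊢
      rw [add_smul, one_smul]
      exact ⟨lat_add ih.1 he, fun z hz => by rw [← add_assoc, hb _ (mem_add h hz ih.1), ih.2 z hz]⟩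
    | pred n ih =>
      push_cast at ih ⊢
      rw [sub_smul, one_smul]
      refine ⟨lat_sub ih.1 he, fun z hz => ?_⟩
      rw [← hb _ (mem_add h hz (lat_sub ih.1 he)), ← ih.2 z hz]
      congr 1; abel
  refine ⟨_, Rg3.prim_desc h hr hb fun z hz l hl => ?_⟩
  obtain ⟨m, n, rfl⟩ := eq_vec hl
  have a := key e0 e0_mem (fun z hz => by simpa using (k z hz).1) m
  have a' := key e1 e1_mem (fun z hz => by simpa using (k z hz).2) n
  rw [← add_assoc, a'.2 _ (mem_add h hz a.1), a.2 z hz]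

lemma dep (a b c : Z2 × Z2) : a = 1 ∨ b = 1 ∨ c = 1 ∨ a * b = 1 ∨ a * c = 1 ∨ b * c = 1 ∨
    a * b * c = 1 := by
  revert a b c; decide

/-- **(COH)** -/
theorem coh (h : Per {0, 1} H) (hr : S ⊆ range H) (hc : IsConnected (H ⁻¹' S))
    (ht : ∀ c : V → V → Z2, Coc S c → Tr (H ⁻¹' S) fun x y => c (H x) (H y))
    {a b c : V → V → Z2} (ha : Coc S a) (hb : Coc S b) (hc' : Coc S c) :
    Tr S a ∨ Tr S b ∨ Tr S c ∨ Tr S (fun x y => a x y * b x y) ∨ Tr S (fun x y => a x y * c x y) ∨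
      Tr S (fun x y => b x y * c x y) ∨ Tr S (fun x y => a x y * b x y * c x y) := by
  obtain ⟨α, k1⟩ := exists_cls h hc (ht a ha)
  obtain ⟨β, k2⟩ := exists_cls h hc (ht b hb)
  obtain ⟨γ, k3⟩ := exists_cls h hc (ht c hc')
  exact (dep α β γ).imp (fun e => (e ▸ k1).tr h hr) (Or.imp (fun e => (e ▸ k2).tr h hr)
    (Or.imp (fun e => (e ▸ k3).tr h hr) (Or.imp (fun e => (e ▸ k1.mul k2).tr h hr)
    (Or.imp (fun e => (e ▸ k1.mul k3).tr h hr) (Or.imp (fun e => (e ▸ k2.mul k3).tr h hr)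
    fun e => (e ▸ (k1.mul k2).mul k3).tr h hr)))))

lemma cancel_left {T : Set V} {a b : V → V → Z2} (h : Tr T fun x y => a x y * b x y)
    (ha : Tr T a) : Tr T b :=
  (ha.inv.mul h).congr (geq_of_eq fun _ _ _ _ => inv_mul_cancel_left _ _)

lemma cancel_right {T : Set V} {a b : V → V → Z2} (h : Tr T fun x y => a x y * b x y)
    (hb : Tr T b) : Tr T a :=
  (h.mul hb.inv).congr (geq_of_eq fun _ _ _ _ => mul_inv_cancel_right _ _)

/-- **(REL)** -/
theorem rel (h : Per {0, 1} H) (hr : S ⊆ range H) (hc : IsConnected (H ⁻¹' S))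
    (ht : ∀ c : V → V → Z2, Coc S c → Tr (H ⁻¹' S) fun x y => c (H x) (H y))
    {A B G G' Γ : Set V} (cA : IsClosed A) (cB : IsClosed B) (cG : IsClosed G) (cG' : IsClosed G')
    (un : A ∪ B = S) (it : A ∩ B = G ∪ G') (dj : Disjoint G G') (nG : G.Nonempty)
    (nG' : G'.Nonempty) (pA : IsPreconnected A) (pB : IsPreconnected B) (hΓ : Γ ⊆ A)
    {ω : V → V → Z2} (hω : Coc S ω) (nω : ¬ Tr Γ ω)
    (bd : ∀ κ : V → V → Z2, Coc B κ → Tr G κ → Tr G' κ) : H1Rel B G := by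
  classical
  have sA : G ∪ G' ⊆ A := it ▸ inter_subset_left
  have sB : G ∪ G' ⊆ B := it ▸ inter_subset_right
  refine h1rel_of (subset_union_left.trans sB) fun κ hκ tG => ?_
  obtain ⟨b0, hb0⟩ := Tr.union (cG.relCl _) (cG'.relCl _) tG (bd κ hκ tG)
    (by rw [dj.inter_eq]; exact isPreconnected_empty)
  obtain ⟨κ', k1, k2, k3⟩ := Coc.glue (cA.relCl _) (cB.relCl _) (prim_cob A b0).coc hκ (by
    rw [it]
    intro x hx
    filter_upwards [hb0 x hx] with y hy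
    rw [hy, inv_mul_cancel_left])
  let β : V → Z2 := fun x => if x ∈ G then Multiplicative.ofAdd 1 else 1
  obtain ⟨τ, t1, t2, t3⟩ := Coc.glue (cA.relCl _) (cB.relCl _) (prim_cob A β).coc
    (tr_one B).choose_spec.coc (by
    rw [it]
    have : LCo (G ∪ G') β := LCo.union (cG.relCl _) (cG'.relCl _)
      (fun x hx => by
        filter_upwards [self_mem_nhdsWithin] with y hy
        simp only [β, if_pos hx, if_pos hy])
      fun x hx => by
        filter_upwards [self_mem_nhdsWithin] with y hy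
        simp only [β, if_neg (disjoint_right.1 dj hx), if_neg (disjoint_right.1 dj hy)]
    intro x hx
    filter_upwards [this x hx] with y hy
    rw [hy, inv_mul_cancel])
  rw [un] at k1 t1
  have aκ : Tr Γ κ' := (Tr.congr ⟨_, prim_cob A b0⟩ k2.symm).mono hΓ
  have aτ : Tr Γ τ := (Tr.congr ⟨_, prim_cob A β⟩ t2.symm).mono hΓ
  have bτ : Tr B τ := (tr_one B).congr t3.symm
  have hA : A ⊆ S := un ▸ subset_union_left
  have hB : B ⊆ S := un ▸ subset_union_right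
  have hΓS := hΓ.trans hA
  have nτ : ¬ Tr S τ := by
    rintro ⟨b, hb⟩
    obtain ⟨p, hp⟩ := nG
    obtain ⟨q, hq⟩ := nG'
    have e1 := (prim_one_iff.1 ((hb.mono hB).congr t3)).eq pB (sB (Or.inl hp)) (sB (Or.inr hq))
    have e2 := (prim_cob A β).uniq ((hb.mono hA).congr t2) pA (sA (Or.inr hq)) (sA (Or.inl hp))
    simp only [β, if_pos hp, if_neg (disjoint_right.1 dj hq), inv_one, mul_one, e1,
      left_eq_mul] at e2
    exact absurd e2 (by decide)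
  rcases coh h hr hc ht t1 hω k1 with k | k | k | k | k | k | k
  · exact (nτ k).elim
  · exact (nω (k.mono hΓS)).elim
  · exact (k.mono hB).congr k3
  · exact (nω (cancel_left (k.mono hΓS) aτ)).elim
  · exact (cancel_left (k.mono hB) bτ).congr k3
  · exact (nω (cancel_right (k.mono hΓS) aκ)).elim
  · exact (nω (cancel_left (cancel_right (k.mono hΓS) aκ) aτ)).elim

end Crest.Agent.X212.Tor42
end

-- ▼ part X212/Tor42/End
section

/-!
# X212 / T layer, TOR (helper42), part 3: two annuli make a torus, lifts and equivariance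
-/

set_option autoImplicit false

open Set Filter Topology Metric Pointwise

namespace Crest.Agent.X212.Tor42

open Crest.Agent.R096 Crest.Agent.R096.Ce_537 Crest.Agent.X212.Prd34 Crest.Agent.X212.Srf12
  Crest.Agent.X212.Lev33 Crest.Agent.X212.Rz42
open Crest.Agent.X212.Lad50 (pl_vec2 pl_add pl_sub pl_mul pl_coord pl_clm)

variable {H : V → V} {S : Set V}

/-- an annulus whose two ends are glued -/
structure Lng (S : Set V) (w : P → V) (ε : ℝ) : Prop where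
  pl : ∀ R : ℝ, PLOn w {y | |y 0| ≤ 1 ∧ |y 1| ≤ R}
  img : w '' {y | |y 0| ≤ 1} = S
  fib : ∀ y y' : P, -1 ≤ y 0 → y 0 < 1 → -1 ≤ y' 0 → y' 0 < 1 → w y = w y' →
    y 0 = y' 0 ∧ ∃ m : ℤ, y 1 - y' 1 = m
  per : ∀ t s : ℝ, |t| ≤ 1 → w ![t, s + 1] = w ![t, s]
  fin : ∀ s, w ![1, s] = w ![-1, ε * s]

lemma glue {A B : Set V} {g k : P → V} {ε : ℝ} (hε : ε * ε = 1) (hA : Ann A g) (hB : Ann B k)
    (un : A ∪ B = S) (it : A ∩ B = g '' {y | y 0 = 1} ∪ g '' {y | y 0 = -1})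
    (e1 : ∀ s, k ![-1, s] = g ![1, s]) (e2 : ∀ s, k ![1, s] = g ![-1, ε * s]) :
    ∃ w, Lng S w ε := by
  let w : P → V := fun y => if y 0 ≤ 0 then g ![2 * y 0 + 1, y 1] else k ![2 * y 0 - 1, y 1]
  have wl : ∀ y : P, y 0 ≤ 0 → w y = g ![2 * y 0 + 1, y 1] := fun y hy => if_pos hy
  have wr : ∀ y : P, 0 ≤ y 0 → w y = k ![2 * y 0 - 1, y 1] := fun y hy => by
    rcases hy.eq_or_lt with e | e
    · rw [wl y e.ge, ← e]; norm_num [e1]
    · exact if_neg (not_le.2 e)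
  have ml : ∀ t : ℝ, -1 ≤ t → t ≤ 0 → |2 * t + 1| ≤ 1 := fun t a b =>
    abs_le.2 ⟨by linarith, by linarith⟩
  have mr : ∀ t : ℝ, 0 ≤ t → t ≤ 1 → |2 * t - 1| ≤ 1 := fun t a b =>
    abs_le.2 ⟨by linarith, by linarith⟩
  have mix : ∀ y y' : P, -1 ≤ y 0 → y 0 ≤ 0 → 0 < y' 0 → y' 0 < 1 → w y ≠ w y' := by
    intro y y' a b c d e
    have m := mr _ c.le d.le
    have : w y' ∈ A ∩ B := ⟨e ▸ wl y b ▸ hA.img ▸ ⟨_, ml _ a b, rfl⟩,
      wr y' c.le ▸ hB.img ▸ ⟨_, m, rfl⟩⟩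
    rw [it, wr y' c.le] at this
    rcases this with ⟨z, hz, q⟩ | ⟨z, hz, q⟩
    · rw [← eta z, (hz : z 0 = 1), ← e1] at q
      have : (-1 : ℝ) = 2 * y' 0 - 1 := ((hB.fib _ _ (by simp) m).1 q).1
      linarith
    · rw [← eta z, (hz : z 0 = -1), show z 1 = ε * (ε * z 1) by rw [← mul_assoc, hε, one_mul],
        ← e2] at q
      have : (1 : ℝ) = 2 * y' 0 - 1 := ((hB.fib _ _ (by simp) m).1 q).1
      linarith
  refine ⟨w, fun R => ?_, Subset.antisymm ?_ ?_, fun y y' a b c d e => ?_, fun t s ht => ?_,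
    fun s => ?_⟩
  · have cl : ∀ a b : ℝ, IsClosed {y : P | (a ≤ y 0 ∧ y 0 ≤ b) ∧ |y 1| ≤ R} := fun a b =>
      ((isClosed_le continuous_const (continuous_apply 0)).and (isClosed_le (continuous_apply 0)
        continuous_const)).and (isClosed_le (by fun_prop) continuous_const)
    refine (PLOn.union (K := {y : P | (-1 ≤ y 0 ∧ y 0 ≤ 0) ∧ |y 1| ≤ R})
      (L := {y : P | (0 ≤ y 0 ∧ y 0 ≤ 1) ∧ |y 1| ≤ R})
      (((hA.pl R).comp (pl_vec2 (pl_add (pl_mul 2 (pl_coord 0 _)) (plOn_const 1 _)) (pl_coord 1 _))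
        fun y hy => ⟨ml _ hy.1.1 hy.1.2, hy.2⟩).congr fun y hy => wl y hy.1.2)
      (((hB.pl R).comp (pl_vec2 (pl_sub (pl_mul 2 (pl_coord 0 _)) (plOn_const 1 _)) (pl_coord 1 _))
        fun y hy => ⟨mr _ hy.1.1 hy.1.2, hy.2⟩).congr fun y hy => wr y hy.1.1)
      (cl _ _) (cl _ _)).mono fun y hy => ?_
    exact (le_total (y 0) 0).imp (fun k => ⟨⟨(abs_le.1 hy.1).1, k⟩, hy.2⟩)
      fun k => ⟨⟨k, (abs_le.1 hy.1).2⟩, hy.2⟩
  · rintro _ ⟨y, hy, rfl⟩
    rw [← un]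
    exact (le_total (y 0) 0).imp
      (fun k => wl y k ▸ hA.img ▸ ⟨_, ml _ (abs_le.1 hy).1 k, rfl⟩)
      fun k => wr y k ▸ hB.img ▸ ⟨_, mr _ k (abs_le.1 hy).2, rfl⟩
  · rw [← un, ← hA.img, ← hB.img]
    rintro _ (⟨y, hy, rfl⟩ | ⟨y, hy, rfl⟩)
    · have := abs_le.1 (show |y 0| ≤ 1 from hy)
      refine ⟨![(y 0 - 1) / 2, y 1], abs_le.2 ⟨show _ ≤ (y 0 - 1) / 2 by linarith,
        show (y 0 - 1) / 2 ≤ _ by linarith⟩, ?_⟩
      rw [wl _ (show (y 0 - 1) / 2 ≤ 0 by linarith)]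
      congr 1; ext i; fin_cases i <;> simp
      ring
    · have := abs_le.1 (show |y 0| ≤ 1 from hy)
      refine ⟨![(y 0 + 1) / 2, y 1], abs_le.2 ⟨show _ ≤ (y 0 + 1) / 2 by linarith,
        show (y 0 + 1) / 2 ≤ _ by linarith⟩, ?_⟩
      rw [wr _ (show 0 ≤ (y 0 + 1) / 2 by linarith)]
      congr 1; ext i; fin_cases i <;> simp
      ring
  · rcases le_or_gt (y 0) 0 with p | p <;> rcases le_or_gt (y' 0) 0 with q | q
    · rw [wl y p, wl y' q] at e
      obtain ⟨r, s⟩ := (hA.fib _ _ (ml _ a p) (ml _ c q)).1 e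
      exact ⟨by have : 2 * y 0 + 1 = 2 * y' 0 + 1 := r; linarith, s⟩
    · exact (mix y y' a p q d e).elim
    · exact (mix y' y c q p b e.symm).elim
    · rw [wr y p.le, wr y' q.le] at e
      obtain ⟨r, s⟩ := (hB.fib _ _ (mr _ p.le b.le) (mr _ q.le d.le)).1 e
      exact ⟨by have : 2 * y 0 - 1 = 2 * y' 0 - 1 := r; linarith, s⟩
  · rcases le_total t 0 with p | p
    · rw [wl _ p, wl _ p]
      exact (hA.fib _ _ (ml _ (abs_le.1 ht).1 p) (ml _ (abs_le.1 ht).1 p)).2 ⟨rfl, 1, by simp⟩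
    · rw [wr _ p, wr _ p]
      exact (hB.fib _ _ (mr _ p (abs_le.1 ht).2) (mr _ p (abs_le.1 ht).2)).2 ⟨rfl, 1, by simp⟩
  · rw [wr _ (by simp), wl _ (by simp)]
    norm_num [e2]

/-- generation of the lattice -/
lemma lat_gen {J : Finset (Fin 3)} {T K : Set V} (hT : IsPreconnected T) (hK : IsCompact K)
    (ne : K.Nonempty) (sub : ∀ x ∈ K, ∀ l ∈ lat J, x + l ∈ T)
    (cov : ∀ z ∈ T, ∃ x ∈ K, ∃ l ∈ lat J, z = x + l) (Λ : AddSubgroup V)
    (gen : ∀ x ∈ K, ∀ x' ∈ K, x - x' ∈ lat J → x - x' ∈ Λ) : ∀ l ∈ lat J, l ∈ Λ := by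
  have cl : ∀ L ⊆ lat J, IsClosed (K + L) := fun L hL =>
    IsClosed.add_left_of_isCompact (Metric.isClosed_of_pairwise_le_dist one_pos
      fun x hx y hy e => not_lt.1 fun k => e (sub_eq_zero.1 (lat_small (lat_sub (hL hx) (hL hy))
        (by rwa [← dist_eq_norm])))) hK
  have dj : ∀ z, z ∈ K + {l | l ∈ lat J ∧ l ∈ Λ} → z ∉ K + {l | l ∈ lat J ∧ l ∉ Λ} := by
    rintro _ ⟨x, hx, l, hl, rfl⟩ ⟨x', hx', l', hl', e⟩
    have e' : x - x' = l' - l := by
      have : x' + l' = x + l := e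
      linear_combination (exp := 1) -this
    have := Λ.add_mem (gen x hx x' hx' (e' ▸ lat_sub hl'.1 hl.1)) hl.2
    rw [e', sub_add_cancel] at this
    exact hl'.2 this
  obtain ⟨x, hx⟩ := ne
  intro l hl
  by_contra k
  obtain ⟨z, -, a, b⟩ := isPreconnected_closed_iff.1 hT _ _
    (cl {l | l ∈ lat J ∧ l ∈ Λ} fun _ k => k.1) (cl {l | l ∈ lat J ∧ l ∉ Λ} fun _ k => k.1)
    (fun z hz => by
      obtain ⟨x, hx, l, hl, rfl⟩ := cov z hz
      by_cases q : l ∈ Λ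
      · exact Or.inl ⟨x, hx, l, ⟨hl, q⟩, rfl⟩
      · exact Or.inr ⟨x, hx, l, ⟨hl, q⟩, rfl⟩)
    ⟨_, sub x hx 0 lat_zero, x, hx, 0, ⟨lat_zero, Λ.zero_mem⟩, rfl⟩
    ⟨_, sub x hx l hl, x, hx, l, ⟨hl, k⟩, rfl⟩
  exact dj z a b

lemma per_int {F : ℝ → V} {a : V} (h : ∀ s, F (s + 1) = F s + a) (s : ℝ) (m : ℤ) :
    F (s + m) = F s + m • a := by
  induction m using Int.induction_on with
  | zero => simp
  | succ n ih => push_cast at ih ⊢; rw [← add_assoc, h, ih, add_smul, one_smul, add_assoc]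
  | pred n ih =>
    push_cast at ih ⊢
    rw [sub_smul, one_smul, ← add_sub_assoc, ← add_sub_assoc, ← ih, eq_sub_iff_add_eq, ← h,
      sub_add_cancel]

lemma Lng.lift {w : P → V} {ε : ℝ} (L : Lng S w ε) (h : Per {0, 1} H) (hr : S ⊆ range H)
    (hc : IsPreconnected (H ⁻¹' S)) : ∃ (W : P → V) (a b : V), ContinuousOn W {y | |y 0| ≤ 1} ∧
      (∀ y : P, |y 0| ≤ 1 → H (W y) = w y) ∧ a ∈ lat {0, 1} ∧ b ∈ lat {0, 1} ∧
      (∀ t s : ℝ, |t| ≤ 1 → W ![t, s + 1] = W ![t, s] + a) ∧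
      (∀ s, W ![1, s] = W ![-1, ε * s] + b) ∧ ∀ l ∈ lat {0, 1}, ∃ p q : ℤ, p • a + q • b = l := by
  have cv : Convex ℝ {y : P | |y 0| ≤ 1} := by
    simp only [abs_le]
    exact (convex_Icc (-1 : ℝ) 1).linear_preimage (LinearMap.proj 0 : P →ₗ[ℝ] ℝ)
  have mS : ∀ y : P, |y 0| ≤ 1 → w y ∈ S := fun y hy => L.img ▸ ⟨y, hy, rfl⟩
  obtain ⟨z0, h0⟩ := hr (mS 0 (by simp))
  obtain ⟨W, cW, eW, -⟩ := exists_lift_convex h cv (cont_of_pl L.pl) (fun y hy => hr (mS y hy))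
    (t0 := 0) (by simp) h0
  have m1 : ∀ s : ℝ, |(![1, s] : P) 0| ≤ 1 := fun s => by simp
  have m2 : ∀ s : ℝ, |(![-1, s] : P) 0| ≤ 1 := fun s => by simp
  have ha : ∀ t s : ℝ, |t| ≤ 1 → W ![t, s + 1] = W ![t, s] + (W ![0, 0 + 1] - W 0) := by
    intro t s ht
    have := lift_uniq h cv.isPreconnected (g := fun y => W ![y 0, y 1 + 1]) (g' := W)
      (cW.comp (by fun_prop) fun y hy => hy) cW (fun y hy => by
        rw [eW ![y 0, y 1 + 1] hy, eW y hy, L.per _ _ hy, eta]) (s := 0) (t := ![t, s]) (by simp) ht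
    exact sub_eq_iff_eq_add'.1 this
  have hb : ∀ s, W ![1, s] = W ![-1, ε * s] + (W ![1, 0] - W ![-1, ε * 0]) := fun s =>
    sub_eq_iff_eq_add'.1 (lift_uniq h isPreconnected_univ (g := fun s : ℝ => W ![1, s])
      (g' := fun s => W ![-1, ε * s]) (cW.comp (by fun_prop) fun s _ => m1 s)
      (cW.comp (by fun_prop) fun s _ => m2 _) (fun s _ => by rw [eW _ (m1 _), eW _ (m2 _), L.fin])
      (s := 0) (t := s) trivial trivial)
  refine ⟨W, _, _, cW, eW, (h.fib _ _).1 ?_, (h.fib _ _).1 ?_, ha, hb, ?_⟩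
  · rw [eW _ (by simp), eW _ (by simp), L.per _ _ (by simp)]
    congr 1; ext i; fin_cases i <;> rfl
  · rw [eW _ (m1 _), eW _ (m2 _), L.fin]
  generalize W ![0, 0 + 1] - W 0 = a at ha
  generalize W ![1, 0] - W ![-1, ε * 0] = b at hb
  have sb : Icc (![-1, 0] : P) ![1, 1] ⊆ {y : P | |y 0| ≤ 1} := fun y hy =>
    abs_le.2 ⟨hy.1 0, hy.2 0⟩
  have ia : a ∈ AddSubgroup.closure {a, b} := AddSubgroup.subset_closure (by simp)
  have ib : b ∈ AddSubgroup.closure {a, b} := AddSubgroup.subset_closure (by simp)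
  have nf : ∀ y : P, |y 0| ≤ 1 → ∃ z : P, -1 ≤ z 0 ∧ z 0 < 1 ∧
      W y - W z ∈ AddSubgroup.closure {a, b} ∧ w y = w z := fun y hy => by
    rcases (abs_le.1 hy).2.eq_or_lt with e | e
    · refine ⟨![-1, ε * y 1], le_rfl, by simp, ?_, ?_⟩
      · rw [← eta y, e, hb]; simpa using ib
      · rw [← L.fin, ← e, eta]
    · exact ⟨y, (abs_le.1 hy).1, e, by simp, rfl⟩
  intro l hl
  refine AddSubgroup.mem_closure_pair.1 (lat_gen hc (isCompact_Icc.image_of_continuousOn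
    (cW.mono sb)) ⟨_, ![0, 0], ⟨fun i => ?_, fun i => ?_⟩, rfl⟩ ?_ (fun z hz => ?_) _ ?_ l hl)
  · fin_cases i <;> simp
  · fin_cases i <;> simp
  · rintro _ ⟨y, hy, rfl⟩ l hl
    rw [mem_preimage, per_add h _ hl, eW y (sb hy)]
    exact mS y (sb hy)
  · obtain ⟨y, hy, e⟩ := L.img.ge hz
    have k := per_int (F := fun s => w ![y 0, s]) (a := 0) (fun s => by simpa using L.per _ s hy)
      (Int.fract (y 1)) ⌊y 1⌋
    simp only [Int.fract_add_floor, eta, smul_zero, add_zero] at k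
    refine ⟨_, ⟨![y 0, Int.fract (y 1)], ⟨fun i => ?_, fun i => ?_⟩, rfl⟩, z - _,
      (h.fib _ _).1 (by rw [eW ![y 0, Int.fract (y 1)] hy, ← k, e]), (add_sub_cancel _ _).symm⟩
    · fin_cases i
      exacts [(abs_le.1 hy).1, Int.fract_nonneg _]
    · fin_cases i
      exacts [(abs_le.1 hy).2, (Int.fract_lt_one _).le]
  · rintro _ ⟨y, hy, rfl⟩ _ ⟨y', hy', rfl⟩ e
    obtain ⟨z, a1, a2, a3, a4⟩ := nf y (sb hy)
    obtain ⟨z', b1, b2, b3, b4⟩ := nf y' (sb hy')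
    have := (h.fib _ _).2 e
    rw [eW _ (sb hy), eW _ (sb hy'), a4, b4] at this
    obtain ⟨c1, m, c2⟩ := L.fib z z' a1 a2 b1 b2 this
    have k := per_int (F := fun s => W ![z' 0, s]) (fun s => ha _ s (abs_le.2 ⟨b1, b2.le⟩)) (z' 1) m
    simp only [← c2, add_sub_cancel, eta] at k
    rw [← c1, eta] at k
    have := AddSubgroup.add_mem _ (AddSubgroup.sub_mem _ a3 b3) (AddSubgroup.zsmul_mem _ ia m)
    convert this using 1
    rw [k]; abel

/-- unrolling -/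
noncomputable def unr (W : P → V) (b : V) (y : P) : V :=
  W ![2 * Int.fract (y 0) - 1, y 1] + ⌊y 0⌋ • b

lemma unr_eq {W : P → V} {b : V} (hb : ∀ s, W ![1, s] = W ![-1, s] + b) (j : ℤ) {y : P}
    (h1 : (j : ℝ) ≤ y 0) (h2 : y 0 ≤ j + 1) : unr W b y = W ![2 * (y 0 - j) - 1, y 1] + j • b := by
  rcases h2.eq_or_lt with e | e
  · have f : ⌊y 0⌋ = j + 1 := by rw [e]; simp
    rw [unr, Int.fract, f, e, show 2 * ((j : ℝ) + 1 - j) - 1 = 1 by ring, hb, add_smul, one_smul]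
    push_cast
    rw [show 2 * ((j : ℝ) + 1 - (j + 1)) - 1 = -1 by ring]; abel
  · have f : ⌊y 0⌋ = j := Int.floor_eq_iff.2 ⟨h1, e⟩
    rw [unr, Int.fract, f]

lemma Lng.tor {w : P → V} (L : Lng S w 1) (h : Per {0, 1} H) {W : P → V} {a b : V}
    (cW : ContinuousOn W {y | |y 0| ≤ 1}) (eW : ∀ y : P, |y 0| ≤ 1 → H (W y) = w y)
    (la : a ∈ lat {0, 1}) (lb : b ∈ lat {0, 1})
    (ha : ∀ t s : ℝ, |t| ≤ 1 → W ![t, s + 1] = W ![t, s] + a) (hb : ∀ s, W ![1, s] = W ![-1, s] + b) :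
    Continuous (unr W b) ∧ Tor S (fun y => H (unr W b y)) ∧
      ∀ (y : P) (m n : ℤ), unr W b (y + ![(m : ℝ), (n : ℝ)]) = unr W b y + (n • a + m • b) := by
  have fr : ∀ t : ℝ, -1 ≤ 2 * Int.fract t - 1 ∧ 2 * Int.fract t - 1 < 1 := fun t =>
    ⟨by linarith [Int.fract_nonneg t], by linarith [Int.fract_lt_one t]⟩
  have fr' : ∀ t : ℝ, |2 * Int.fract t - 1| ≤ 1 := fun t => abs_le.2 ⟨(fr t).1, (fr t).2.le⟩
  have cl : ∀ j : ℤ, IsClosed {y : P | (j : ℝ) ≤ y 0 ∧ y 0 ≤ j + 1} := fun j =>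
    (isClosed_le continuous_const (continuous_apply 0)).and (isClosed_le (continuous_apply 0)
      continuous_const)
  have mj : ∀ (j : ℤ) (y : P), (j : ℝ) ≤ y 0 ∧ y 0 ≤ j + 1 → |2 * (y 0 - j) - 1| ≤ 1 :=
    fun j y hy => abs_le.2 ⟨by linarith [hy.1], by linarith [hy.2]⟩
  have zb : ∀ j : ℤ, j • b ∈ lat {0, 1} := fun j => (latG {0, 1}).zsmul_mem lb j
  have eH : ∀ y, H (unr W b y) = w ![2 * Int.fract (y 0) - 1, y 1] := fun y => by
    rw [unr, per_add h _ (zb _), eW _ (fr' _)]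
  have eq : ∀ (y : P) (m n : ℤ),
      unr W b (y + ![(m : ℝ), (n : ℝ)]) = unr W b y + (n • a + m • b) := fun y m n => by
    have := per_int (F := fun s => W ![2 * Int.fract (y 0) - 1, s]) (fun s => ha _ s (fr' _)) (y 1) n
    simp only [unr, Pi.add_apply, Matrix.cons_val_zero, Matrix.cons_val_one, Int.fract_add_intCast,
      Int.floor_add_intCast, this, add_smul]
    abel
  refine ⟨continuous_iff_continuousAt.2 fun y => ?_, ⟨fun R => ?_, Subset.antisymm ?_ ?_,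
    fun y y' => ⟨fun e => ?_, fun e => ?_⟩⟩, eq⟩
  · have c : ∀ j : ℤ, ContinuousOn (unr W b) {y : P | (j : ℝ) ≤ y 0 ∧ y 0 ≤ j + 1} := fun j =>
      ((cW.comp (f := fun y : P => ![2 * (y 0 - j) - 1, y 1]) (by fun_prop) (mj j)).add
        continuousOn_const).congr fun y hy => unr_eq hb j hy.1 hy.2
    refine (((c (⌊y 0⌋ - 1)).union_of_isClosed (c ⌊y 0⌋) (cl _) (cl _)).continuousAt ?_)
    have : ∀ᶠ z : P in 𝓝 y, z 0 ∈ Ioo ((⌊y 0⌋ : ℝ) - 1) (⌊y 0⌋ + 1) :=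
      (continuous_apply 0).continuousAt (Ioo_mem_nhds (by linarith [Int.floor_le (y 0)])
        (Int.lt_floor_add_one _))
    filter_upwards [this] with z hz
    exact (le_total (z 0) ⌊y 0⌋).imp (fun k => ⟨by push_cast; exact hz.1.le, by push_cast; linarith⟩)
      fun k => ⟨k, hz.2.le⟩
  · refine (plOn_biUnion (K := fun j : ℤ => {y : P | (j : ℝ) ≤ y 0 ∧ y 0 ≤ j + 1} ∩ {y | |y 1| ≤ R})
      (Icc ⌊-R⌋ ⌊R⌋) (finite_Icc _ _) (fun j _ => ((L.pl R).comp (pl_vec2 (pl_sub (pl_mul 2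
        (pl_sub (pl_coord 0 _) (plOn_const (j : ℝ) _))) (plOn_const 1 _)) (pl_coord 1 _))
        fun y hy => ⟨mj j y hy.1, hy.2⟩).congr fun y hy => ?_)
      fun j _ => (cl j).inter (isClosed_le (by fun_prop) continuous_const)).mono fun y hy => ?_
    · show H (unr W b y) = _
      rw [unr_eq hb j hy.1.1 hy.1.2, per_add h _ (zb _), eW _ (mj j y hy.1)]
    · have k : ∀ i, |y i| ≤ R := fun i =>
        (norm_le_pi_norm y i).trans (mem_closedBall_zero_iff.1 hy)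
      exact mem_biUnion (show ⌊y 0⌋ ∈ Icc ⌊-R⌋ ⌊R⌋ from ⟨Int.floor_mono (abs_le.1 (k 0)).1,
        Int.floor_mono (abs_le.1 (k 0)).2⟩) ⟨⟨Int.floor_le _, (Int.lt_floor_add_one _).le⟩, k 1⟩
  · rintro _ ⟨y, rfl⟩
    exact L.img ▸ ⟨_, fr' _, (eH y).symm⟩
  · rw [← L.img]
    rintro _ ⟨y, hy, rfl⟩
    have := abs_le.1 (show |y 0| ≤ 1 from hy)
    refine ⟨![(y 0 + 1) / 2, y 1], ?_⟩
    show H (unr W b _) = _
    rw [unr_eq hb 0 (show ((0 : ℤ) : ℝ) ≤ (y 0 + 1) / 2 by push_cast; linarith)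
      (show (y 0 + 1) / 2 ≤ ((0 : ℤ) : ℝ) + 1 by push_cast; linarith), per_add h _ (zb _), ← eW y hy]
    congr 2; ext i; fin_cases i <;> simp
    ring
  · simp only [eH] at e
    obtain ⟨p, q⟩ := L.fib _ _ (fr _).1 (fr _).2 (fr _).1 (fr _).2 e
    have : Int.fract (y 0) = Int.fract (y' 0) := by
      have : 2 * Int.fract (y 0) - 1 = 2 * Int.fract (y' 0) - 1 := p
      linarith
    intro i
    fin_cases i
    exacts [Int.fract_eq_fract.1 this, q]
  · obtain ⟨m, hm⟩ := e 0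
    obtain ⟨n, hn⟩ := e 1
    have : y = y' + ![(m : ℝ), (n : ℝ)] := by
      ext i; fin_cases i
      · show y 0 = y' 0 + m
        linarith
      · show y 1 = y' 1 + n
        linarith
    show H _ = H _
    rw [this, eq, per_add h _ (lat_add ((latG {0, 1}).zsmul_mem la n) (zb m))]

/-- change of the basis -/
lemma basis {u : P → V} {a b : V} (cu : Continuous u) (tu : Tor S fun y => H (u y))
    (eu : ∀ (y : P) (m n : ℤ), u (y + ![(m : ℝ), (n : ℝ)]) = u y + (n • a + m • b))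
    (la : a ∈ lat {0, 1}) (lb : b ∈ lat {0, 1}) {p q r s : ℤ} (h0 : p • a + q • b = e0)
    (h1 : r • a + s • b = e1) : ∃ u : P → V, Continuous u ∧ Tor S (fun y => H (u y)) ∧
      ∀ y m : P, lv 0 m ∈ lat {0, 1} → u (y + m) = u y + lv 0 m := by
  obtain ⟨a0, a1, ea⟩ := eq_vec la
  obtain ⟨b0, b1, eb⟩ := eq_vec lb
  have k : (!![b0, a0; b1, a1] : Matrix (Fin 2) (Fin 2) ℤ) * !![q, s; p, r] = 1 := by
    have c1 := congrFun h0 0
    have c2 := congrFun h0 1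
    have c3 := congrFun h1 0
    have c4 := congrFun h1 1
    simp [ea, eb, e0, e1] at c1 c2 c3 c4
    norm_cast at c1 c2 c3 c4
    ext i j; fin_cases i <;> fin_cases j <;> simp [Matrix.mul_apply, Fin.sum_univ_two] <;> linarith
  have k' := mul_eq_one_comm.1 k
  have c : ∀ M N : Matrix (Fin 2) (Fin 2) ℤ, M * N = 1 → ∀ y : P,
      (M.map (↑) : Matrix _ _ ℝ).mulVec ((N.map (↑) : Matrix _ _ ℝ).mulVec y) = y := fun M N e y => by
    have : (M.map (↑) : Matrix _ _ ℝ) * N.map (↑) = (M * N).map (↑) :=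
      (Matrix.map_mul (f := Int.castRingHom ℝ)).symm
    rw [Matrix.mulVec_mulVec, this, e]
    simp
  have iz : ∀ (M : Matrix (Fin 2) (Fin 2) ℤ) (y : P), (∀ i, ∃ m : ℤ, y i = m) →
      ∀ i, ∃ m : ℤ, (M.map (↑) : Matrix _ _ ℝ).mulVec y i = m := fun M y hy i => by
    obtain ⟨m, hm⟩ := hy 0
    obtain ⟨n, hn⟩ := hy 1
    exact ⟨M i 0 * m + M i 1 * n, by simp [Matrix.mulVec, dotProduct, Fin.sum_univ_two, hm, hn]⟩
  set N : Matrix (Fin 2) (Fin 2) ℝ := (!![q, s; p, r] : Matrix (Fin 2) (Fin 2) ℤ).map (↑) with hN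
  let T : P →L[ℝ] P := LinearMap.toContinuousLinearMap N.mulVecLin
  refine ⟨fun y => u (T y), cu.comp T.continuous, ⟨fun R => (tu.pl (‖T‖ * R)).comp (pl_clm T _)
    fun y hy => ?_, ?_, fun y y' => (tu.fib _ _).trans ⟨fun e => ?_, fun e => ?_⟩⟩, fun y m hm => ?_⟩
  · rw [mem_closedBall_zero_iff] at hy ⊢
    exact T.le_opNorm_of_le hy
  · rw [← tu.img]
    exact Function.Surjective.range_comp (f := T) (fun y => ⟨_, c _ _ k' y⟩) fun y => H (u y)
  · have := iz !![b0, a0; b1, a1] (T (y - y')) (by rw [map_sub]; exact e)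
    rwa [show T (y - y') = N.mulVec (y - y') from rfl, c _ _ k] at this
  · have := iz !![q, s; p, r] (y - y') e
    rwa [show Matrix.mulVec _ (y - y') = T (y - y') from rfl, map_sub] at this
  · obtain ⟨m0, h2⟩ : ∃ n : ℤ, m 0 = n := (hm 0).1 (by decide)
    obtain ⟨m1, h3⟩ : ∃ n : ℤ, m 1 = n := (hm 1).1 (by decide)
    have : T m = ![((q * m0 + s * m1 : ℤ) : ℝ), ((p * m0 + r * m1 : ℤ) : ℝ)] := by
      ext i
      fin_cases i <;> simp [T, hN, Matrix.mulVec, dotProduct, Fin.sum_univ_two, h2, h3]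
    beta_reduce
    rw [map_add, this, eu]
    congr 1
    have : lv 0 m = m0 • e0 + m1 • e1 := by
      ext i; fin_cases i <;> simp [lv, e0, e1, h2, h3]
    rw [this, ← h1, ← h0]
    module

/-- **(END)** -/
theorem fin {w : P → V} {ε : ℝ} (hε : ε = 1 ∨ ε = -1) (L : Lng S w ε) (h : Per {0, 1} H)
    (hr : S ⊆ range H) (hc : IsPreconnected (H ⁻¹' S)) :
    ∃ u : P → V, Continuous u ∧ Tor S (fun y => H (u y)) ∧
      ∀ y m : P, lv 0 m ∈ lat {0, 1} → u (y + m) = u y + lv 0 m := by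
  obtain ⟨W, a, b, cW, eW, la, lb, ha, hb, gen⟩ := L.lift h hr hc
  obtain ⟨p, q, h0⟩ := gen _ e0_mem
  obtain ⟨r, s, h1⟩ := gen _ e1_mem
  rcases hε with rfl | rfl
  · simp only [one_mul] at hb
    obtain ⟨k1, k2, k3⟩ := L.tor h cW eW la lb ha hb
    exact basis k1 k2 k3 la lb h0 h1
  · exfalso
    have c1 := ha 1 0 (by simp)
    have c2 := ha (-1) (-1) (by simp)
    rw [hb, hb] at c1
    norm_num at c1 c2
    have a0 : a = 0 := by
      have : (2 : ℝ) • a = 0 := by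
        rw [c2] at c1
        rw [two_smul]
        linear_combination (exp := 1) -c1
      exact (smul_eq_zero.1 this).resolve_left two_ne_zero
    have c1 := congrFun h0 0
    have c2 := congrFun h0 1
    have c3 := congrFun h1 0
    have c4 := congrFun h1 1
    simp only [a0, e0, e1, Pi.mul_apply, Pi.intCast_apply, zsmul_eq_mul, Matrix.cons_val_zero,
      smul_zero, Matrix.cons_val_one, zero_add] at c1 c2 c3 c4
    have : (1 : ℝ) = 0 := by linear_combination -(s * b 1) * c1 - c4 + (s * b 0) * c2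
    exact one_ne_zero this

end Crest.Agent.X212.Tor42
end

-- ▼ part X212/Anb49/Flag
section

/-!
# X212 / T layer / G-ANB (helper49), part 1: orientation decides sides

`flag`: a positively oriented PL germ of `V` which fixes the axis and respects the floor and the
upper half space respects the two halves of the floor.
`sides'`: a coherent family of local bicollars gives a side predicate.
-/

set_option autoImplicit false

open Set Metric Topology Filter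

namespace Crest.Agent.X212.Anb49

open Crest.Agent.R096 Crest.Agent.R096.Ce_537
open Crest.Agent.R096.Str_696 (AffAt Sg Conic)
open Crest.Agent.X212.Prd34 (V)
open Crest.Agent.X212.Thk1

theorem app3 (A : V →L[ℝ] V) (v : V) (i : Fin 3) :
    A v i = v 0 * A (Pi.single 0 1) i + v 1 * A (Pi.single 1 1) i + v 2 * A (Pi.single 2 1) i := by
  have e : v = v 0 • (Pi.single 0 1 : V) + v 1 • (Pi.single 1 1 : V) +
      v 2 • (Pi.single 2 1 : V) := by
    ext j; fin_cases j <;> simp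
  conv_lhs => rw [e]
  simp

theorem det3 (A : V →L[ℝ] V) (h1 : A (Pi.single 0 1) 2 = 0) (h2 : A (Pi.single 1 1) 0 = 0)
    (h3 : A (Pi.single 1 1) 2 = 0) :
    A.det = A (Pi.single 0 1) 0 * A (Pi.single 1 1) 1 * A (Pi.single 2 1) 2 := by
  have e : A.det = (LinearMap.toMatrix' (A : V →ₗ[ℝ] V)).det :=
    (LinearMap.det_toMatrix' _).symm
  have e' : ∀ i j, LinearMap.toMatrix' (A : V →ₗ[ℝ] V) i j = A (Pi.single j 1) i := by
    intro i j
    rw [LinearMap.toMatrix'_apply]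
    rfl
  rw [e, Matrix.det_fin_three]
  simp only [e', h1, h2, h3]
  ring

/-- **orientation decides sides** -/
theorem flag {φ : V → V} {p : V} (hφ : Str_696.LocPL φ {p}) (p0 : p 0 = 0) (p2 : p 2 = 0)
    (q0 : φ p 0 = 0) (q2 : φ p 2 = 0)
    (h : ∀ᶠ y in 𝓝 p, (y 0 = 0 → y 2 = 0 → φ y - φ p = y - p) ∧ (y 2 = 0 → φ y 2 = 0) ∧
      (y 2 ≠ 0 → 0 < y 2 * φ y 2) ∧ (y 2 = 0 → φ y 0 = 0 → y 0 = 0) ∧
      ∀ A, AffAt φ y A → 0 < A.det) :
    ∀ᶠ y in 𝓝 p, y 2 = 0 → y 0 ≠ 0 → 0 < y 0 * φ y 0 := by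
  obtain ⟨r₁, S, H, hr₁, hH, hh⟩ := hφ.conic (mem_singleton p)
  obtain ⟨r₂, hr₂, hb⟩ := Metric.eventually_nhds_iff_ball.1 h
  set r := min r₁ r₂ with hr
  have r0 : 0 < r := lt_min hr₁ hr₂
  have e1 : ∀ v : V, ‖v‖ < r → φ (p + v) = φ p + H v := fun v hv =>
    hh v (hv.trans_le (min_le_left _ _))
  have e2 : ∀ v : V, ‖v‖ < r → p + v ∈ ball p r₂ := fun v hv => by
    simpa using hv.trans_le (min_le_right _ _)
  have a1 : ∀ v : V, ‖v‖ < r → v 0 = 0 → v 2 = 0 → H v = v := fun v hv h0 h2 => by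
    have := (hb _ (e2 v hv)).1 (by simp [p0, h0]) (by simp [p2, h2])
    rw [e1 v hv] at this
    simpa using this
  have a2 : ∀ v : V, ‖v‖ < r → v 2 = 0 → H v 2 = 0 := fun v hv h2 => by
    have := (hb _ (e2 v hv)).2.1 (by simp [p2, h2])
    rw [e1 v hv] at this
    simpa [q2] using this
  have a3 : ∀ v : V, ‖v‖ < r → v 2 ≠ 0 → 0 < v 2 * H v 2 := fun v hv h2 => by
    have := (hb _ (e2 v hv)).2.2.1 (by simpa [p2] using h2)
    rw [e1 v hv] at this
    simpa only [Pi.add_apply, p2, q2, zero_add] using this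
  have a4 : ∀ v : V, ‖v‖ < r → v 2 = 0 → H v 0 = 0 → v 0 = 0 := fun v hv h2 h0 => by
    have := (hb _ (e2 v hv)).2.2.2.1 (by simp [p2, h2]) (by rw [e1 v hv]; simp [q0, h0])
    simpa [p0] using this
  have key : ∀ σ : ℝ, σ * σ = 1 → ∀ v : V, ‖v‖ < r → v 2 = 0 → 0 < σ * v 0 →
      0 < σ * H v 0 := by
    intro σ hσ
    have σ0 : σ ≠ 0 := by rintro rfl; simp at hσ
    have σ1 : |σ| = 1 := by
      have := abs_mul_abs_self σ
      nlinarith [abs_nonneg σ]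
    have hcv : Convex ℝ (ball (0 : V) r ∩ ({v : V | v 2 = 0} ∩ {v : V | 0 < σ * v 0})) := by
      refine (convex_ball _ _).inter (Convex.inter ?_ ?_)
      · exact convex_hyperplane (f := fun v : V => v 2) ⟨fun _ _ => rfl, fun _ _ => rfl⟩ 0
      · exact convex_halfSpace_gt (f := fun v : V => σ * v 0)
          ⟨fun x y => by simp [mul_add], fun c x => by simp [mul_left_comm]⟩ 0
    have hc : Continuous fun v : V => σ * H v 0 :=
      continuous_const.mul ((continuous_apply 0).comp hH.cont)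
    rcases hcv.isPreconnected.mapsTo_Ioi_or_Iio hc.continuousOn (b := 0) (fun v hv e => by
      have h0 := a4 v (by simpa using hv.1) hv.2.1 ((mul_eq_zero.1 e).resolve_left σ0)
      have h1 : 0 < σ * v 0 := hv.2.2
      rw [h0, mul_zero] at h1
      exact lt_irrefl _ h1) with hs | hs
    · exact fun v hv h2 h0 => hs ⟨by simpa using hv, h2, h0⟩
    exfalso
    let F : S → Set V := fun A => {v | H v = A.1 v}
    have cF : ∀ A, IsClosed (F A) := fun A => isClosed_eq hH.cont A.1.continuous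
    have hd : Dense (⋃ A, interior (F A)) := dense_iUnion_interior_of_closed cF
      (eq_univ_of_forall fun v => by
        obtain ⟨A, hA, e⟩ := hH.sel v
        exact mem_iUnion.2 ⟨⟨A, hA⟩, e⟩)
    have cov : ∀ v, ∃ A, v ∈ closure (interior (F A)) := fun v => by
      have := hd v
      rwa [closure_iUnion_of_finite, mem_iUnion] at this
    have ZF : ∀ A, closure (interior (F A)) ⊆ F A := fun A =>
      closure_minimal interior_subset (cF A)
    let c : ℝ → V := fun ε => ![σ * ε, r / 2, 0]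
    have cc : Continuous c := by
      refine continuous_pi fun i => ?_
      fin_cases i <;> simp [c] <;> fun_prop
    have cn : ∀ ε, |ε| < r → ‖c ε‖ < r := fun ε hε => by
      rw [pi_norm_lt_iff r0]
      intro i
      fin_cases i
      · simpa [c, σ1] using hε
      · simp only [c]
        show ‖r / 2‖ < r
        rw [Real.norm_eq_abs, abs_of_pos (half_pos r0)]; linarith
      · simpa [c] using r0
    obtain ⟨A, hA⟩ : ∃ A, ∃ᶠ ε in 𝓝[>] (0 : ℝ), c ε ∈ closure (interior (F A)) := by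
      by_contra hn
      push Not at hn
      obtain ⟨ε, hε⟩ := (eventually_all.2 hn).exists
      obtain ⟨A, hA⟩ := cov (c ε)
      exact hε A hA
    have hb0 : c 0 ∈ closure (interior (F A)) :=
      isClosed_closure.mem_of_frequently_of_tendsto hA
        ((cc.tendsto 0).mono_left nhdsWithin_le_nhds)
    obtain ⟨ε, hε, hε'⟩ := (hA.and_eventually (Ioo_mem_nhdsGT r0)).exists
    have n0 : ‖c 0‖ < r := cn 0 (by simpa using r0)
    have nε : ‖c ε‖ < r := cn ε (by rw [abs_of_pos hε'.1]; exact hε'.2)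
    obtain ⟨u, hu, hu2⟩ : ∃ u ∈ ball (0 : V) r ∩ interior (F A), u 2 ≠ 0 := by
      obtain ⟨u, hu⟩ := mem_closure_iff.1 hb0 (ball 0 r) isOpen_ball (by simpa using n0)
      by_cases h2 : u 2 = 0
      · have h3 : Continuous fun t : ℝ => u + t • (Pi.single 2 1 : V) := by fun_prop
        have h4 : ∀ᶠ t in 𝓝[>] (0 : ℝ), u + t • (Pi.single 2 1 : V) ∈
            ball (0 : V) r ∩ interior (F A) :=
          ((h3.tendsto 0).mono_left nhdsWithin_le_nhds).eventually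
            ((isOpen_ball.inter isOpen_interior).mem_nhds (by simpa using hu))
        obtain ⟨t, ht, ht'⟩ := (h4.and self_mem_nhdsWithin).exists
        exact ⟨_, ht, by simpa [h2] using (ne_of_gt ht')⟩
      · exact ⟨u, hu, h2⟩
    have nu : ‖u‖ < r := by simpa using hu.1
    have eu : H u = A.1 u := interior_subset (s := F A) hu.2
    have af : AffAt H u A.1 := by
      filter_upwards [mem_interior_iff_mem_nhds.1 hu.2] with y hy
      rw [eu, ← map_add, add_sub_cancel]; exact hy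
    have hp := (hb _ (e2 u nu)).2.2.2.2 _ (AffAt.of_germ e1 nu af)
    have b1 : A.1 (c 0) = c 0 := (ZF A hb0).symm.trans (a1 _ n0 (by simp [c]) (by simp [c]))
    have b2 : ∀ i, r / 2 * A.1 (Pi.single 1 1) i = c 0 i := fun i => by
      have := app3 A.1 (c 0) i
      rw [b1] at this
      rw [this]; simp [c]
    have hr2 : r / 2 ≠ 0 := (half_pos r0).ne'
    have c0 : A.1 (Pi.single 1 1) 0 = 0 :=
      (mul_eq_zero.1 ((b2 0).trans (by simp [c]))).resolve_left hr2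
    have c1 : A.1 (Pi.single 1 1) 1 = 1 :=
      mul_left_cancel₀ hr2 ((b2 1).trans (by simp [c]))
    have c2 : A.1 (Pi.single 1 1) 2 = 0 :=
      (mul_eq_zero.1 ((b2 2).trans (by simp [c]))).resolve_left hr2
    have eε : H (c ε) = A.1 (c ε) := ZF A hε
    have d2 : A.1 (Pi.single 0 1) 2 = 0 := by
      have := a2 _ nε (by simp [c])
      rw [eε, app3, c2] at this
      simpa [c, σ0, hε'.1.ne'] using this
    have d0 : A.1 (Pi.single 0 1) 0 < 0 := by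
      have h1 : σ * H (c ε) 0 < 0 := hs ⟨by simpa using nε, by simp [c], by
        show 0 < σ * (σ * ε)
        rw [← mul_assoc, hσ, one_mul]; exact hε'.1⟩
      rw [eε, app3, c0] at h1
      have h2 : σ * (σ * ε * A.1 (Pi.single 0 1) 0) < 0 := by simpa [c] using h1
      have h3 : ε * A.1 (Pi.single 0 1) 0 < 0 := by
        linear_combination h2 - (ε * A.1 (Pi.single 0 1) 0) * hσ
      exact neg_of_mul_neg_right h3 hε'.1.le
    have d3 : 0 < A.1 (Pi.single 2 1) 2 := by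
      have h1 := a3 u nu hu2
      rw [eu, app3, d2, c2, mul_zero, mul_zero, zero_add, zero_add, ← mul_assoc] at h1
      exact (mul_pos_iff_of_pos_left (mul_self_pos.2 hu2)).1 h1
    rw [det3 _ d2 c0 c2, c1, mul_one] at hp
    nlinarith [mul_pos (neg_pos.2 d0) d3]
  filter_upwards [ball_mem_nhds p r0] with y hy h2 h0
  have hv : ‖y - p‖ < r := by rwa [← dist_eq_norm]
  have e3 : φ y 0 = H (y - p) 0 := by
    have := e1 _ hv
    rw [add_sub_cancel] at this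
    rw [this]; simp [q0]
  have e4 : (y - p) 2 = 0 := by simp [h2, p2]
  have e5 : (y - p) 0 = y 0 := by simp [p0]
  rw [e3]
  rcases lt_or_gt_of_ne h0 with h1 | h1
  · have := key (-1) (by norm_num) _ hv e4 (by rw [e5]; linarith)
    nlinarith
  · have := key 1 (by norm_num) _ hv e4 (by rw [e5]; linarith)
    nlinarith

/-- a functional separating two rays in the plane -/
theorem exists_sep {u0 u1 w0 w1 : ℝ}
    (h : ∀ a b : ℝ, 0 ≤ a → 0 ≤ b → a * u0 = b * w0 → a * u1 = b * w1 → a = 0 ∧ b = 0) :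
    ∃ c0 c1 : ℝ, 0 < c0 * u0 + c1 * u1 ∧ c0 * w0 + c1 * w1 < 0 := by
  by_cases hD : u0 * w1 - u1 * w0 = 0
  · have h1 : 0 < u0 * u0 + u1 * u1 := by
      by_contra hn
      have e0 : u0 = 0 := by nlinarith [mul_self_nonneg u0, mul_self_nonneg u1]
      have e1 : u1 = 0 := by nlinarith [mul_self_nonneg u0, mul_self_nonneg u1]
      exact one_ne_zero (h 1 0 zero_le_one le_rfl (by simp [e0]) (by simp [e1])).1
    refine ⟨u0, u1, h1, ?_⟩
    by_contra hn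
    exact h1.ne' (h _ _ (not_lt.1 hn) h1.le (by linear_combination u1 * hD)
      (by linear_combination (-u0) * hD)).2
  · have h1 := mul_self_pos.2 hD
    refine ⟨(w1 + u1) * (u0 * w1 - u1 * w0), -(w0 + u0) * (u0 * w1 - u1 * w0), ?_, ?_⟩ <;>
      linarith

/-- a coherent family of local bicollars gives a side predicate -/
theorem sides' {E : Type*} [NormedAddCommGroup E] [NormedSpace ℝ E] {M N D : Set E} {ι : Type*}
    (hD : IsCompact D) (P : ι → Pc (-1) M N D) (W : ι → Set E) (hW : ∀ i, IsOpen (W i))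
    (cov : ∀ x ∈ D, ∃ i, x ∈ W i) (hO : ∀ i, ∀ x ∈ W i, (P i).O ∈ 𝓝[M] x)
    (coh : ∀ i j, ∀ x ∈ D, x ∈ W i → x ∈ W j →
      ∀ᶠ y in 𝓝[M \ D] x, 0 < ((P i).c.g y).2 * ((P j).c.g y).2) :
    ∃ S : E → Prop, ∀ x ∈ D, ∃ P : Pc (-1) M N D, P.O ∈ 𝓝[M] x ∧
      ∀ᶠ y in 𝓝[M \ D] x, (S y ↔ 0 < (P.c.g y).2) := by
  have h1 : ∀ x : D, ∃ i, ∃ ρ > 0, closedBall (x : E) ρ ⊆ W i := by
    rintro ⟨x, hx⟩
    obtain ⟨i, hi⟩ := cov x hx
    exact ⟨i, nhds_basis_closedBall.mem_iff.1 ((hW i).mem_nhds hi)⟩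
  choose ix ρ hρ hb using h1
  obtain ⟨T, hT⟩ := hD.elim_nhds_subcover' (fun x hx => ball x (ρ ⟨x, hx⟩))
    (fun x hx => ball_mem_nhds _ (hρ _))
  refine ⟨fun y => ∃ z : T, y ∈ closedBall (z.1 : E) (ρ z.1) ∧ 0 < ((P (ix z.1)).c.g y).2,
    fun x hx => ?_⟩
  obtain ⟨z, hz, hxz⟩ := mem_iUnion₂.1 (hT hx)
  have hxW : x ∈ W (ix z) := hb z (ball_subset_closedBall hxz)
  refine ⟨P (ix z), hO _ x hxW, ?_⟩
  have e1 : ∀ᶠ y in 𝓝[M \ D] x, ∀ z' : T, y ∈ closedBall (z'.1 : E) (ρ z'.1) →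
      0 < ((P (ix z)).c.g y).2 * ((P (ix z'.1)).c.g y).2 := by
    rw [eventually_all]
    intro z'
    by_cases hj : x ∈ closedBall (z'.1 : E) (ρ z'.1)
    · filter_upwards [coh _ _ x hx hxW (hb _ hj)] with y hy _
      exact hy
    · filter_upwards [nhdsWithin_le_nhds (isClosed_closedBall.isOpen_compl.mem_nhds hj)]
        with y hy hy'
      exact absurd hy' hy
  filter_upwards [e1, nhdsWithin_le_nhds (isOpen_ball.mem_nhds hxz)] with y hy hy'
  constructor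
  · rintro ⟨z', h2, h3⟩
    exact (pos_iff_pos_of_mul_pos (hy z' h2)).2 h3
  · exact fun h => ⟨⟨z, hz⟩, ball_subset_closedBall hy', h⟩

end Crest.Agent.X212.Anb49
end

-- ▼ part X212/Anb49/Ch
section

/-!
# X212 / T layer / G-ANB (helper49), part 2: charts of the triple `(M, dM, Γ)`
-/

set_option autoImplicit false

open Set Metric Topology Filter

namespace Crest.Agent.X212.Anb49

open Crest.Agent.R096 Crest.Agent.R096.Ce_537
open Crest.Agent.R096.Str_696 (AffAt Sg Conic)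
open Crest.Agent.X212.Prd34 (V up fl Mf)
open Crest.Agent.X212.Thk1 Crest.Agent.X212.Srf12

/-- a point of the axis -/
def ax (t : ℝ) : V := ![0, t, 0]

theorem ax_eq {y : V} (h0 : y 0 = 0) (h2 : y 2 = 0) : y = ax (y 1) := by
  ext i; fin_cases i <;> simp [ax, h0, h2]

theorem mem_cb {s r : ℝ} (hr : 0 < r) {y : V} :
    y ∈ closedBall (ax s) r ↔ |y 0| ≤ r ∧ |y 1 - s| ≤ r ∧ |y 2| ≤ r := by
  rw [mem_closedBall, dist_pi_le_iff hr.le, Fin.forall_fin_succ, Fin.forall_fin_two]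
  simp [ax, Real.dist_eq]

theorem pl_vec {E : Type*} [NormedAddCommGroup E] [NormedSpace ℝ E] {K : Set E} {a b c : E → ℝ}
    (ha : PLOn a K) (hb : PLOn b K) (hc : PLOn c K) : PLOn (fun x => (![a x, b x, c x] : V)) K :=
  pl_pi fun i => by fin_cases i <;> simpa

theorem loop_cont {Γ : Set V} {γ : ℝ → V} (h : Loop Γ γ) : Continuous γ :=
  continuous_iff_continuousAt.2 fun t => (h.pl (|t| + 1)).1.continuousAt
    (Icc_mem_nhds (by linarith [neg_abs_le t]) (by linarith [le_abs_self t]))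

theorem lpl_of {E F : Type*} [NormedAddCommGroup E] [NormedSpace ℝ E] [NormedAddCommGroup F]
    [NormedSpace ℝ F] {f : E → F} {K : Set E} (h : PLOn f K) {x : E} (hx : K ∈ 𝓝 x) :
    Str_696.LocPL f {x} := by
  rintro _ rfl
  obtain ⟨r, hr, hb⟩ := Metric.mem_nhds_iff.1 hx
  obtain ⟨h1, S, h2⟩ := h.mono hb
  exact ⟨r, hr, S, h1, h2⟩

theorem th_inj {p q a b : ℝ} (hp : 0 < p) (hq : q < 0)
    (h : p * max a 0 + q * max (-a) 0 = p * max b 0 + q * max (-b) 0) : a = b := by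
  have key : StrictMono fun a : ℝ => p * max a 0 + q * max (-a) 0 := fun a b hab => by
    rcases le_total 0 a with ha | ha <;> rcases le_total 0 b with hb | hb
    · simp only [max_eq_left ha, max_eq_left hb, max_eq_right (neg_nonpos.2 ha),
        max_eq_right (neg_nonpos.2 hb)]
      nlinarith
    · linarith
    · simp only [max_eq_right ha, max_eq_left hb, max_eq_left (neg_nonneg.2 ha),
        max_eq_right (neg_nonpos.2 hb)]
      rcases ha.lt_or_eq with h | h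
      · nlinarith [mul_nonneg hp.le hb, mul_pos_of_neg_of_neg hq h]
      · subst h; nlinarith [mul_pos hp hab]
    · simp only [max_eq_right ha, max_eq_right hb, max_eq_left (neg_nonneg.2 ha),
        max_eq_left (neg_nonneg.2 hb)]
      nlinarith
  exact key.injective h

/-- a chart of the triple along the axis -/
structure Gc (M dM Γ : Set V) (γ : ℝ → V) where
  s : ℝ
  r : ℝ
  hr : 0 < r
  B : Set V
  e : PLEquiv (closedBall (ax s) r) B
  hM : ∀ y ∈ closedBall (ax s) r, (e.f y ∈ M ↔ 0 ≤ y 2)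
  hd : ∀ y ∈ closedBall (ax s) r, (e.f y ∈ dM ↔ y 2 = 0)
  hΓ : ∀ y ∈ closedBall (ax s) r, e.f y ∈ Γ → y 0 = 0
  ha : ∀ t, ax t ∈ closedBall (ax s) r → e.f (ax t) = γ t

variable {M dM Γ : Set V} {γ : ℝ → V}

/-- charts exist -/
theorem exists_gc0 (hM : Mf M dM) (hΓ : Γ ⊆ dM) (hγ : Loop Γ γ) (s : ℝ) :
    ∃ k : Gc M dM Γ γ, k.s = s := by
  have mΓ : ∀ t, γ t ∈ Γ := fun t => hγ.img ▸ mem_range_self t
  obtain ⟨B, e, e0, hB, eM, ed⟩ := hM.2.2 (γ s) (hΓ (mΓ s))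
  have hc := loop_cont hγ
  have z3 : (0 : V) ∈ cube 3 := mem_closedBall_self zero_le_one
  have n1 : γ ⁻¹' B ∩ Icc (-(|s| + 1)) (|s| + 1) ∈ 𝓝 s := inter_mem (hc.continuousAt hB)
    (Icc_mem_nhds (by linarith [neg_abs_le s]) (by linarith [le_abs_self s]))
  have l1 : Str_696.LocPL (fun t => e.g (γ t)) {s} :=
    lpl_of (e.pg.comp ((hγ.pl _).mono inter_subset_right) fun t ht => ht.1) n1
  obtain ⟨r₁, S, H, hr₁, hH, hh⟩ := l1.conic (mem_singleton s)
  obtain ⟨r₂, hr₂, hb⟩ := Metric.mem_nhds_iff.1 n1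
  set δ := min (min r₁ r₂) (1 / 2) with hδ
  have δ0 : 0 < δ := lt_min (lt_min hr₁ hr₂) (by norm_num)
  have δ1 : δ ≤ 1 / 2 := min_le_right _ _
  have g0 : e.g (γ s) = 0 := by rw [← e0, e.li _ z3]
  have inB : ∀ τ, |τ| < δ → γ (s + τ) ∈ B := fun τ hτ => (hb (by
    simpa using hτ.trans_le ((min_le_left _ _).trans (min_le_right _ _)))).1
  have eH : ∀ τ, |τ| < δ → e.g (γ (s + τ)) = H τ := fun τ hτ => by
    have := hh τ (hτ.trans_le ((min_le_left _ _).trans (min_le_left _ _)))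
    rwa [g0, zero_add] at this
  have H2 : ∀ τ, |τ| < δ → H τ 2 = 0 := fun τ hτ => by
    obtain ⟨y, hy, hy'⟩ := ed.le ⟨inB τ hτ, hΓ (mΓ _)⟩
    rw [← eH τ hτ, ← hy', e.li y hy.1]; exact hy.2
  have Hi : ∀ τ τ', |τ| < δ → |τ'| < δ → H τ = H τ' → τ = τ' := fun τ τ' h h' hτ => by
    rw [← eH τ h, ← eH τ' h'] at hτ
    obtain ⟨m, hm⟩ := (hγ.fib _ _).1 (e.symm.injOn (inB τ h) (inB τ' h') hτ)
    rw [abs_lt] at h h'
    have h1 : (m : ℝ) < 1 := by linarith [h.2, h'.1]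
    have h2 : (-1 : ℝ) < m := by linarith [h.1, h'.2]
    have h3 : m = 0 := by
      have h1' : m < 1 := by exact_mod_cast h1
      have h2' : -1 < m := by exact_mod_cast h2
      omega
    rw [h3] at hm
    simp only [Int.cast_zero] at hm
    linarith
  set u := H 1 with hu
  set w := H (-1) with hw
  have Hp : ∀ τ, 0 ≤ τ → H τ = τ • u := fun τ h => by simpa using hH.homog τ 1 h
  have Hm : ∀ τ, 0 ≤ τ → H (-τ) = τ • w := fun τ h => by simpa using hH.homog τ (-1) h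
  have hd2 : |δ / 2| < δ := by rw [abs_of_pos (half_pos δ0)]; linarith
  have u2 : u 2 = 0 := by
    have := H2 _ hd2
    rw [Hp _ (half_pos δ0).le] at this
    simpa [δ0.ne'] using this
  have w2 : w 2 = 0 := by
    have := H2 (-(δ / 2)) (by rwa [abs_neg])
    rw [Hm _ (half_pos δ0).le] at this
    simpa [δ0.ne'] using this
  obtain ⟨c0, c1, hcu, hcw⟩ := exists_sep (u0 := u 0) (u1 := u 1) (w0 := w 0) (w1 := w 1)
    (fun a b ha hb h0 h1 => by
      have h2 : a • u = b • w := by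
        ext i; fin_cases i
        · exact h0
        · exact h1
        · simp [u2, w2]
      set l := δ / (a + b + 1) with hl
      have hab : 0 < a + b + 1 := by linarith
      have l0 : 0 < l := div_pos δ0 hab
      have l1 : l * (a + b + 1) = δ := div_mul_cancel₀ _ hab.ne'
      have h3 := Hi (l * a) (-(l * b))
        (by rw [abs_of_nonneg (by positivity)]; nlinarith [mul_nonneg l0.le hb])
        (by rw [abs_neg, abs_of_nonneg (by positivity)]; nlinarith [mul_nonneg l0.le ha])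
        (by rw [Hp _ (by positivity), Hm _ (by positivity), mul_smul, mul_smul, h2])
      have h4 : l * (a + b) = 0 := by linarith
      have h5 := (mul_eq_zero.1 h4).resolve_left l0.ne'
      constructor <;> linarith)
  let K : V → V := fun y => ![-c1 * y 0 + (u 0 * max (y 1 - s) 0 + w 0 * max (-(y 1 - s)) 0),
    c0 * y 0 + (u 1 * max (y 1 - s) 0 + w 1 * max (-(y 1 - s)) 0), y 2]
  have pK : PLOn K univ := by
    have p0 : ∀ i, PLOn (fun y : V => y i) univ := fun i => pl_coord (plOn_id _) i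
    have p1 : PLOn (fun y : V => y 1 - s) univ := pl_sub (p0 1) (plOn_const _ _)
    have p2 := pl_max p1 (plOn_const 0 _)
    have p3 := pl_max (pl_neg p1) (plOn_const 0 _)
    exact pl_vec (pl_add (pl_mul _ (p0 0)) (pl_add (pl_mul _ p2) (pl_mul _ p3)))
      (pl_add (pl_mul _ (p0 0)) (pl_add (pl_mul _ p2) (pl_mul _ p3))) (p0 2)
  have K2 : ∀ y, K y 2 = y 2 := fun y => rfl
  have Ka : ∀ τ, K (ax (s + τ)) = H τ := fun τ => by
    rcases le_total 0 τ with h | h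
    · rw [Hp τ h]
      ext i; fin_cases i <;> simp [K, ax, h, u2, mul_comm]
    · rw [show H τ = (-τ) • w by rw [← Hm _ (neg_nonneg.2 h), neg_neg]]
      ext i; fin_cases i <;> simp [K, ax, h, w2, mul_comm]
  have Ki : Function.Injective K := fun y y' h => by
    have h0 := congrFun h 0
    have h1 := congrFun h 1
    have h2 : y 2 = y' 2 := congrFun h 2
    simp only [K, Matrix.cons_val_zero, Matrix.cons_val_one] at h0 h1
    have h3 : (c0 * u 0 + c1 * u 1) * max (y 1 - s) 0 + (c0 * w 0 + c1 * w 1) * max (-(y 1 - s)) 0 =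
        (c0 * u 0 + c1 * u 1) * max (y' 1 - s) 0 +
          (c0 * w 0 + c1 * w 1) * max (-(y' 1 - s)) 0 := by
      linear_combination c0 * h0 + c1 * h1
    have h4 : y 1 - s = y' 1 - s := th_inj hcu hcw h3
    rw [h4] at h0 h1
    have h5 : (c0 * u 0 + c1 * u 1) * (y 0 - y' 0) = 0 := by
      linear_combination u 0 * h1 - u 1 * h0
    have h6 := (mul_eq_zero.1 h5).resolve_left hcu.ne'
    ext i; fin_cases i
    · exact sub_eq_zero.1 h6
    · exact sub_left_inj.1 h4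
    · exact h2
  have K0 : K (ax s) = 0 := by simpa [hH.zero] using Ka 0
  have cK : ContinuousAt K (ax s) := pK.1.continuousAt univ_mem
  have cu : cube 3 ∈ 𝓝 (K (ax s)) := by rw [K0]; exact closedBall_mem_nhds _ one_pos
  have hZ : (γ '' Icc (s + δ / 2) (s + 1 - δ / 2))ᶜ ∈ 𝓝 (e.f (K (ax s))) := by
    refine (isCompact_Icc.image hc).isClosed.isOpen_compl.mem_nhds ?_
    rw [K0, e0]
    rintro ⟨t, ht, h⟩
    obtain ⟨m, hm⟩ := (hγ.fib _ _).1 h
    have h1 : (m : ℝ) < 1 := by linarith [ht.2]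
    have h2 : (0 : ℝ) < m := by linarith [ht.1]
    have h1' : m < 1 := by exact_mod_cast h1
    have h2' : 0 < m := by exact_mod_cast h2
    omega
  obtain ⟨r, hr, hsub⟩ := nhds_basis_closedBall.mem_iff.1 (inter_mem (inter_mem (cK cu)
    (((e.pf.1.continuousAt cu).comp cK) hZ)) (ball_mem_nhds (ax s) δ0))
  have mK : MapsTo K (closedBall (ax s) r) (cube 3) := fun y hy => (hsub hy).1.1
  have mem : ∀ (X Y : Set V), B ∩ X = e.f '' (cube 3 ∩ Y) → ∀ y ∈ cube 3,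
      (e.f y ∈ X ↔ y ∈ Y) := fun X Y h y hy => ⟨fun h1 => by
    obtain ⟨y', hy', h2⟩ := h.le ⟨e.mf hy, h1⟩
    rw [← e.injOn hy'.1 hy h2]; exact hy'.2, fun h1 => (h.ge ⟨y, ⟨hy, h1⟩, rfl⟩).2⟩
  refine ⟨⟨s, r, hr, _, Cx_609.equivOfInjOn (convex_closedBall _ _).finConv isClosed_closedBall
    (e.pf.comp (pK.mono (subset_univ _)) mK)
    (fun y hy y' hy' h => Ki (e.injOn (mK hy) (mK hy') h)),
    fun y hy => mem M up eM _ (mK hy), fun y hy => mem dM fl ed _ (mK hy),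
    fun y hy h => ?_, fun t ht => ?_⟩, rfl⟩
  · change e.f (K y) ∈ Γ at h
    obtain ⟨t, ht⟩ := hγ.img.ge h
    set m := ⌊t - (s - δ / 2)⌋ with hm
    have h1 := Int.floor_le (t - (s - δ / 2))
    have h2 := Int.lt_floor_add_one (t - (s - δ / 2))
    have h3 : γ (t - m) = e.f (K y) := ((hγ.fib _ _).2 ⟨m, by ring⟩).symm.trans ht
    have h4 : t - m < s + δ / 2 := by
      by_contra hn
      exact (hsub hy).1.2 ⟨t - m, ⟨not_lt.1 hn, by linarith⟩, h3⟩
    have h5 : |t - m - s| < δ := abs_lt.2 ⟨by linarith, by linarith⟩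
    have h6 := eH _ h5
    rw [← Ka, add_sub_cancel, h3, e.li _ (mK hy)] at h6
    rw [Ki h6]; rfl
  · change e.f (K (ax t)) = γ t
    have h1 : |t - s| < δ := by
      have := (dist_pi_lt_iff δ0).1 (hsub ht).2 1
      simpa [ax, Real.dist_eq] using this
    have h2 := inB _ h1
    have h3 := eH _ h1
    rw [← Ka] at h3
    rw [add_sub_cancel] at h2 h3
    rw [← h3, e.ri _ h2]

/-- reflection in the first coordinate -/
noncomputable def rf : V →L[ℝ] V := LinearMap.toContinuousLinearMap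
  { toFun := fun y => ![-y 0, y 1, y 2]
    map_add' := fun x y => by ext i; fin_cases i <;> simp [add_comm]
    map_smul' := fun c x => by ext i; fin_cases i <;> simp }

theorem rf_apply (y : V) : rf y = ![-y 0, y 1, y 2] := rfl

theorem rf_rf (y : V) : rf (rf y) = y := by ext i; fin_cases i <;> simp [rf_apply]

theorem rf_ax (t : ℝ) : rf (ax t) = ax t := by ext i; fin_cases i <;> simp [rf_apply, ax]

theorem rf_det : rf.det = -1 := by
  rw [det3] <;> simp [rf_apply]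

theorem rf_mem {s r : ℝ} (hr : 0 < r) : MapsTo rf (closedBall (ax s) r) (closedBall (ax s) r) :=
  fun y hy => by
    rw [mem_cb hr] at hy ⊢
    simpa [rf_apply] using hy

namespace Gc

variable (k : Gc M dM Γ γ)

/-- the reflected chart -/
noncomputable def flip : Gc M dM Γ γ where
  s := k.s
  r := k.r
  hr := k.hr
  B := k.B
  e := PLEquiv.trans ⟨rf, rf, pl_clm rf _, pl_clm rf _, rf_mem k.hr, rf_mem k.hr,
    fun y _ => rf_rf y, fun y _ => rf_rf y⟩ k.e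
  hM := fun y hy => k.hM (rf y) (rf_mem k.hr hy)
  hd := fun y hy => k.hd (rf y) (rf_mem k.hr hy)
  hΓ := fun y hy h => neg_eq_zero.1 (k.hΓ (rf y) (rf_mem k.hr hy) h)
  ha := fun t ht => by
    change k.e.f (rf (ax t)) = _
    rw [rf_ax]; exact k.ha t ht

/-- the open part -/
def O : Set V := k.e.f '' ball (ax k.s) k.r

theorem opn : IsOpen k.O := R105.Iod1_690.isOpen_image_fd rfl isOpen_ball
  (k.e.pf.1.mono ball_subset_closedBall) (k.e.injOn.mono ball_subset_closedBall)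

theorem OB : k.O ⊆ k.B := by
  rintro _ ⟨y, hy, rfl⟩; exact k.e.mf (ball_subset_closedBall hy)

theorem nh {z : V} (hz : z ∈ k.O) : k.B ∈ 𝓝 z := mem_of_superset (k.opn.mem_nhds hz) k.OB

theorem gb {z : V} (hz : z ∈ k.O) : k.e.g z ∈ ball (ax k.s) k.r := by
  obtain ⟨y, hy, rfl⟩ := hz
  rwa [k.e.li y (ball_subset_closedBall hy)]

theorem lpl : Str_696.LocPL k.e.g k.O := fun z hz => lpl_of k.e.pg (k.nh hz) z rfl

/-- the positively oriented part -/
def W : Set V := k.O ∩ Sg 1 k.e.g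

theorem opnW : IsOpen k.W := k.opn.inter (Str_696.isOpen_Sg _ _)

end Gc

/-- positive charts exist -/
theorem exists_gc (hM : Mf M dM) (hΓ : Γ ⊆ dM) (hγ : Loop Γ γ) (s : ℝ) :
    ∃ k : Gc M dM Γ γ, γ s ∈ k.W := by
  obtain ⟨k, rfl⟩ := exists_gc0 hM hΓ hγ s
  have h0 : ∀ k : Gc M dM Γ γ, γ k.s ∈ k.O := fun k =>
    ⟨_, mem_ball_self k.hr, k.ha _ (mem_closedBall_self k.hr.le)⟩
  rcases Str_696.mem_Sg k.opn k.lpl (k.e.symm.injOn.mono k.OB) (h0 k) with h | h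
  · exact ⟨k, h0 k, h⟩
  · refine ⟨k.flip, h0 k.flip, ?_⟩
    filter_upwards [h] with y hy A hA
    have h1 : AffAt k.e.g y (rf.comp A) := by
      filter_upwards [hA] with z hz
      change rf (k.e.g z) = rf (k.e.g y) + _ at hz
      rw [← rf_rf (k.e.g z), hz, map_add, rf_rf]; rfl
    have h2 := hy _ h1
    have h3 : (rf.comp A).det = rf.det * A.det := LinearMap.det_comp _ _
    rw [h3, rf_det] at h2
    linarith

end Crest.Agent.X212.Anb49
end

-- ▼ part X212/Anb49/Main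
section

/-!
# X212 / T layer / G-ANB (helper49), part 3: a circle in the boundary is two-sided
-/

set_option autoImplicit false

open Set Metric Topology Filter

namespace Crest.Agent.X212.Anb49

open Crest.Agent.R096 Crest.Agent.R096.Ce_537
open Crest.Agent.R096.Str_696 (AffAt Sg Conic)
open Crest.Agent.X212.Prd34 (V P up fl Mf)
open Crest.Agent.X212.Thk1 Crest.Agent.X212.Srf12

variable {M dM Γ : Set V} {γ : ℝ → V}

namespace Gc

variable (k : Gc M dM Γ γ)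

theorem ax_mem {t : ℝ} (ht : t ∈ Icc (k.s - k.r) (k.s + k.r)) :
    ax t ∈ closedBall (ax k.s) k.r := by
  rw [mem_cb k.hr]
  refine ⟨by simpa [ax] using k.hr.le, ?_, by simpa [ax] using k.hr.le⟩
  exact abs_le.2 ⟨by simp only [ax, Matrix.cons_val_one, Matrix.cons_val_zero]; linarith [ht.1],
    by simp only [ax, Matrix.cons_val_one, Matrix.cons_val_zero]; linarith [ht.2]⟩

theorem vec_mem {t a : ℝ} (ht : t ∈ Icc (k.s - k.r) (k.s + k.r)) (ha : a ∈ Icc (-1 : ℝ) 1) :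
    (![k.r * a, t, 0] : V) ∈ closedBall (ax k.s) k.r := by
  have h := (mem_cb k.hr).1 (k.ax_mem ht)
  rw [mem_cb k.hr]
  refine ⟨?_, h.2⟩
  have := k.hr
  exact abs_le.2 ⟨by simp only [Matrix.cons_val_zero]; nlinarith [ha.1],
    by simp only [Matrix.cons_val_zero]; nlinarith [ha.2]⟩

theorem g1_mem {z : V} (hz : z ∈ k.B) : k.e.g z 1 ∈ Icc (k.s - k.r) (k.s + k.r) := by
  have := abs_le.1 ((mem_cb k.hr).1 (k.e.mg hz)).2.1
  exact ⟨by linarith [this.1], by linarith [this.2]⟩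

theorem g2 {z : V} (hz : z ∈ k.B) : z ∈ dM ↔ k.e.g z 2 = 0 := by
  rw [← k.hd _ (k.e.mg hz), k.e.ri z hz]

theorem gM {z : V} (hz : z ∈ k.B) : z ∈ M ↔ 0 ≤ k.e.g z 2 := by
  rw [← k.hM _ (k.e.mg hz), k.e.ri z hz]

theorem onax {z : V} (hz : z ∈ k.B) (h0 : k.e.g z 0 = 0) (h2 : k.e.g z 2 = 0) :
    z = γ (k.e.g z 1) := by
  rw [← k.ha _ (k.ax_mem (k.g1_mem hz)), ← ax_eq h0 h2, k.e.ri z hz]

/-- the local bicollar of a chart -/
noncomputable def pc (hγ : Loop Γ γ) : Pc (-1) dM ∅ Γ where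
  Q := (fun t => k.e.f (ax t)) '' Icc (k.s - k.r) (k.s + k.r)
  O := k.B ∩ dM
  c :=
    { f := fun q => k.e.f ![k.r * q.2, k.e.g q.1 1, 0]
      g := fun z => (k.e.f (ax (k.e.g z 1)), k.r⁻¹ * k.e.g z 0)
      pf := k.e.pf.comp (pl_vec (pl_mul _ (pl_snd' _)) (pl_coord (k.e.pg.comp (pl_fst' _) (by
          rintro ⟨_, a⟩ ⟨⟨t, ht, rfl⟩, -⟩; exact k.e.mf (k.ax_mem ht))) 1) (plOn_const 0 _)) (by
        rintro ⟨_, a⟩ ⟨⟨t, ht, rfl⟩, ha⟩
        simp only [k.e.li _ (k.ax_mem ht)]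
        exact k.vec_mem ht ha)
      pg := (pl_pair (k.e.pf.comp (pl_vec (plOn_const 0 _) (pl_coord k.e.pg 1) (plOn_const 0 _))
          fun z hz => k.ax_mem (k.g1_mem hz)) (pl_mul _ (pl_coord k.e.pg 0))).mono
        inter_subset_left
      mf := by
        rintro ⟨_, a⟩ ⟨⟨t, ht, rfl⟩, ha⟩
        simp only [k.e.li _ (k.ax_mem ht)]
        exact ⟨k.e.mf (k.vec_mem ht ha), (k.hd _ (k.vec_mem ht ha)).2 rfl⟩
      mg := fun z hz => by
        refine ⟨⟨_, k.g1_mem hz.1, rfl⟩, ?_⟩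
        have h := abs_le.1 ((mem_cb k.hr).1 (k.e.mg hz.1)).1
        have h1 := inv_pos.2 k.hr
        have h2 := inv_mul_cancel₀ k.hr.ne'
        constructor <;> simp only <;> nlinarith [h.1, h.2]
      li := by
        rintro ⟨_, a⟩ ⟨⟨t, ht, rfl⟩, ha⟩
        simp only [k.e.li _ (k.ax_mem ht)]
        rw [show ax t 1 = t from rfl, k.e.li _ (k.vec_mem ht ha)]
        simp [k.hr.ne']
      ri := fun z hz => by
        simp only [k.e.li _ (k.ax_mem (k.g1_mem hz.1))]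
        refine Eq.trans (congrArg _ ?_) (k.e.ri z hz.1)
        ext i; fin_cases i
        · simp [k.hr.ne']
        · rfl
        · exact ((k.g2 hz.1).1 hz.2).symm }
  cQ := isCompact_Icc.image_of_continuousOn
    (k.e.pf.comp (pl_vec (plOn_const 0 _) (plOn_id _) (plOn_const 0 _)) fun _ h => k.ax_mem h).1
  QD := by
    rintro _ ⟨t, ht, rfl⟩
    simp only [k.ha t (k.ax_mem ht)]
    exact hγ.img ▸ mem_range_self t
  OA := inter_subset_right
  zero := by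
    rintro _ ⟨t, ht, rfl⟩
    simp only [k.e.li _ (k.ax_mem ht), mul_zero]
    rfl
  inD := by
    rintro _ ⟨t, ht, rfl⟩ a ha h
    simp only [k.e.li _ (k.ax_mem ht)] at h
    exact (mul_eq_zero.1 (k.hΓ _ (k.vec_mem ht ha) h)).resolve_left k.hr.ne'
  inN := fun _ _ _ _ => Iff.rfl

/-- transition maps of positive charts are positive -/
theorem pos (k' : Gc M dM Γ γ) {y : V} (hy : y ∈ closedBall (ax k.s) k.r) (h : k.e.f y ∈ k.W)
    (h' : k.e.f y ∈ k'.W) {A : V →L[ℝ] V} (hA : AffAt (fun y => k'.e.g (k.e.f y)) y A) :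
    0 < A.det := by
  have e1 : ∀ᶠ z in 𝓝 (k.e.f y), AffAt (fun y => k'.e.g (k.e.f y)) (k.e.g z) A :=
    (k.e.pg.1.continuousAt (k.nh h.1)).eventually (by rw [k.e.li y hy]; exact hA.eventually)
  obtain ⟨z, ⟨A₁, h1⟩, h2, h3, h4, h5⟩ := ((k.lpl.frequently_aff h.1).and_eventually
    (e1.and ((show ∀ᶠ z in 𝓝 (k.e.f y), z ∈ k.O from k.opn.mem_nhds h.1).and
      (Eventually.and h.2 h'.2)))).exists
  have h6 : AffAt k'.e.g z (A.comp A₁) := by
    filter_upwards [h1, k.nh h3, (k.e.pg.1.continuousAt (k.nh h3)).eventually h2] with w a b c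
    simp only [k.e.ri w b, k.e.ri z (k.OB h3)] at c
    rw [c, a, add_sub_cancel_left]; rfl
  have h7 := h5 _ h6
  have h8 := h4 _ h1
  rw [show (A.comp A₁).det = A.det * A₁.det from LinearMap.det_comp _ _] at h7
  rw [one_mul] at h7 h8
  exact (mul_pos_iff_of_pos_right h8).1 h7

/-- positive charts give the same sides -/
theorem coh (k' : Gc M dM Γ γ) (hΓ : Γ ⊆ dM) (hγ : Loop Γ γ) {x : V} (hx : x ∈ Γ)
    (h : x ∈ k.W) (h' : x ∈ k'.W) :
    ∀ᶠ z in 𝓝[dM \ Γ] x, 0 < k.e.g z 0 * k'.e.g z 0 := by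
  have mΓ : ∀ t, γ t ∈ Γ := fun t => hγ.img ▸ mem_range_self t
  have g0 : ∀ k : Gc M dM Γ γ, x ∈ k.B → k.e.g x 0 = 0 := fun k hk =>
    k.hΓ _ (k.e.mg hk) (by rwa [k.e.ri x hk])
  have xB := k.OB h.1
  have xB' := k'.OB h'.1
  set p := k.e.g x with hp
  have ep : k.e.f p = x := k.e.ri x xB
  have p0 : p 0 = 0 := g0 k xB
  have p2 : p 2 = 0 := (k.g2 xB).1 (hΓ hx)
  have q0 := g0 k' xB'
  have q2 := (k'.g2 xB').1 (hΓ hx)
  have n1 : closedBall (ax k.s) k.r ∈ 𝓝 p :=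
    mem_of_superset (isOpen_ball.mem_nhds (k.gb h.1)) ball_subset_closedBall
  have n2 : k.e.f ⁻¹' (k.W ∩ k'.W) ∈ 𝓝 p :=
    k.e.pf.1.continuousAt n1 (by rw [ep]; exact (k.opnW.inter k'.opnW).mem_nhds ⟨h, h'⟩)
  obtain ⟨m, hm⟩ := (hγ.fib _ _).1 ((k.onax xB p0 p2).symm.trans (k'.onax xB' q0 q2))
  have n3 : ∀ᶠ y in 𝓝 p, ax (y 1 - m) ∈ closedBall (ax k'.s) k'.r := by
    have hc : Continuous fun y : V => ax (y 1 - m) := by
      refine continuous_pi fun i => ?_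
      fin_cases i <;> simp [ax] <;> fun_prop
    refine hc.continuousAt.eventually (mem_of_superset (isOpen_ball.mem_nhds ?_)
      ball_subset_closedBall)
    have := k'.gb h'.1
    rwa [ax_eq q0 q2, show k'.e.g x 1 = p 1 - m by linarith] at this
  have hf := flag (φ := fun y => k'.e.g (k.e.f y)) (p := p)
    (lpl_of (k'.e.pg.comp (k.e.pf.mono inter_subset_left) fun y hy => k'.OB hy.2.2.1)
      (inter_mem n1 n2)) p0 p2 (by simpa only [ep] using q0) (by simpa only [ep] using q2) (by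
    filter_upwards [n1, n2, n3] with y a b c
    have yB := k'.OB b.2.1
    refine ⟨fun h0 h2 => ?_, fun h2 => (k'.g2 yB).1 ((k.hd y a).2 h2), fun h2 => ?_,
      fun h2 h0 => ?_, fun A hA => k.pos k' a b.1 b.2 hA⟩
    · have e1 : k.e.f y = k'.e.f (ax (y 1 - m)) := by
        rw [k'.ha _ c, ax_eq h0 h2, k.ha _ (by rwa [← ax_eq h0 h2])]
        exact (hγ.fib _ _).2 ⟨m, by simp [ax]⟩
      rw [e1, k'.e.li _ c, ep, ax_eq q0 q2, ax_eq h0 h2, ax_eq p0 p2]
      ext i; fin_cases i <;> simp [ax]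
      linarith
    · have e1 := (k.hM y a).symm.trans (k'.gM yB)
      have e2 := (k.hd y a).symm.trans (k'.g2 yB)
      rcases lt_or_gt_of_ne h2 with h3 | h3
      · exact mul_pos_of_neg_of_neg h3 (not_le.1 fun h4 => h3.not_ge (e1.2 h4))
      · exact mul_pos h3 (lt_of_le_of_ne (e1.1 h3.le) fun h4 => h2 (e2.2 h4.symm))
    · refine k.hΓ y a ?_
      rw [k'.onax yB h0 ((k'.g2 yB).1 ((k.hd y a).2 h2))]
      exact mΓ _)
  filter_upwards [nhdsWithin_le_nhds ((k.e.pg.1.continuousAt (k.nh h.1)).eventually hf),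
    nhdsWithin_le_nhds (k.nh h.1), self_mem_nhdsWithin] with z a b c
  have z2 := (k.g2 b).1 c.1
  have := a z2 fun h0 => c.2 (by rw [k.onax b h0 z2]; exact mΓ _)
  rwa [k.e.ri z b] at this

end Gc

/-- a circle in the boundary has a bicollar in the boundary -/
theorem exists_bicollar (hM : Mf M dM) (hΓ : Γ ⊆ dM) (hγ : Loop Γ γ) :
    ∃ Q : Pc (-1) dM ∅ Γ, Q.Q = Γ ∧ ∀ x ∈ Γ, Q.O ∈ 𝓝[dM] x := by
  have hc : IsCompact Γ := by
    have : Γ = γ '' Icc 0 1 := by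
      rw [← hγ.img]
      refine Subset.antisymm ?_ (image_subset_range _ _)
      rintro _ ⟨t, rfl⟩
      exact ⟨Int.fract t, ⟨Int.fract_nonneg t, (Int.fract_lt_one t).le⟩,
        ((hγ.fib _ _).2 ⟨⌊t⌋, by simp⟩).symm⟩
    rw [this]; exact isCompact_Icc.image (loop_cont hγ)
  obtain ⟨S, hS⟩ := sides' (M := dM) hc (fun k : Gc M dM Γ γ => k.pc hγ) (fun k => k.W)
    (fun k => k.opnW) (fun x hx => by
      obtain ⟨s, rfl⟩ := hγ.img.ge hx
      exact exists_gc hM hΓ hγ s)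
    (fun k x hx => inter_mem (nhdsWithin_le_nhds (k.nh hx.1)) self_mem_nhdsWithin)
    (fun k k' x hx h h' => by
      filter_upwards [k.coh k' hΓ hγ hx h h'] with z hz
      change 0 < k.r⁻¹ * k.e.g z 0 * (k'.r⁻¹ * k'.e.g z 0)
      rw [mul_mul_mul_comm]
      exact mul_pos (mul_pos (inv_pos.2 k.hr) (inv_pos.2 k'.hr)) hz)
  obtain ⟨Q, h1, -, h2, -⟩ := bicollar hc hΓ isOpen_univ (subset_univ _) S hS
  exact ⟨Q, h1, h2⟩

/-- **(ANB)** -/
theorem anbStmt : Geo46.AnbStmt := by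
  intro M dM Γ γ hM hΓ hγ
  obtain ⟨Q, hQ, hO⟩ := exists_bicollar hM hΓ hγ
  have mΓ : ∀ t, γ t ∈ Q.Q := fun t => by rw [hQ, ← hγ.img]; exact mem_range_self t
  obtain ⟨W, hW, hW1, hW2⟩ : ∃ W, IsOpen W ∧ Γ ⊆ W ∧ W ∩ dM ⊆ Q.O := by
    choose! U h1 h2 h3 using fun x hx => mem_nhdsWithin.1 (hO x hx)
    refine ⟨⋃ x ∈ Γ, U x, isOpen_biUnion h1, fun x hx => mem_biUnion hx (h2 x hx), ?_⟩
    rintro y ⟨hy, hy'⟩
    obtain ⟨x, hx, hyx⟩ := mem_iUnion₂.1 hy
    exact h3 x hx ⟨hyx, hy'⟩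
  have hev : ∀ᶠ t in 𝓝 (0 : ℝ), ∀ u ∈ Q.Q, u ∈ Q.Q → t ∈ Icc (-1 : ℝ) 1 → Q.c.f (u, t) ∈ W := by
    refine Q.cQ.eventually_forall_of_forall_eventually fun u hu => ?_
    have h1 : Q.c.f ⁻¹' W ∈ 𝓝[Q.Q ×ˢ Icc (-1) 1] (u, 0) :=
      Q.c.pf.1 (u, 0) ⟨hu, by norm_num, zero_le_one⟩
        (by rw [Q.zero u hu]; exact hW.mem_nhds (hW1 (Q.QD hu)))
    filter_upwards [(continuous_swap.tendsto ((0 : ℝ), u)).eventually
      (eventually_nhdsWithin_iff.1 h1)] with z hz h2 h3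
    exact hz ⟨h2, h3⟩
  obtain ⟨ε, hε, hb⟩ := Metric.eventually_nhds_iff.1 hev
  set ρ := min ε 1 with hρ
  have ρ0 : 0 < ρ := lt_min hε one_pos
  have ρ1 : ρ ≤ 1 := min_le_right _ _
  have mI : ∀ a : ℝ, |a| ≤ 1 → ρ * a ∈ Icc (-1 : ℝ) 1 := fun a ha => by
    rw [abs_le] at ha
    constructor <;> nlinarith [ha.1, ha.2]
  refine ⟨_, fun y => Q.c.f (γ (y 1), ρ * y 0), ⟨fun R => ?_, rfl, fun y y' hy hy' => ?_⟩, ?_,
    fun s => ?_, ?_⟩
  · exact Q.c.pf.comp (pl_pair ((hγ.pl R).comp (pl_coord (plOn_id _) 1) fun y hy => abs_le.1 hy.2)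
      (pl_mul _ (pl_coord (plOn_id _) 0))) fun y hy => ⟨mΓ _, mI _ hy.1⟩
  · constructor
    · intro h
      have := Prod.ext_iff.1 (Q.c.injOn
        (show (γ (y 1), ρ * y 0) ∈ Q.Q ×ˢ Icc (-1 : ℝ) 1 from ⟨mΓ _, mI _ hy⟩)
        (show (γ (y' 1), ρ * y' 0) ∈ Q.Q ×ˢ Icc (-1 : ℝ) 1 from ⟨mΓ _, mI _ hy'⟩) h)
      exact ⟨mul_left_cancel₀ ρ0.ne' this.2, (hγ.fib _ _).1 this.1⟩
    · rintro ⟨h1, h2⟩
      simp only [h1, (hγ.fib _ _).2 h2]
  · rintro _ ⟨y, hy, rfl⟩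
    exact Q.OA (Q.c.mf ⟨mΓ _, mI _ hy⟩)
  · simpa using Q.zero _ (mΓ s)
  · obtain ⟨U, hU, hU'⟩ := continuousOn_iff'.1 (pl_snd Q.c.pg).1 (ball 0 ρ) isOpen_ball
    refine ⟨W ∩ U, hW.inter hU, Subset.antisymm ?_ ?_⟩
    · rintro _ ⟨y, hy, rfl⟩
      have h1 : (γ (y 1), ρ * y 0) ∈ Q.Q ×ˢ Icc (-1 : ℝ) 1 := ⟨mΓ _, mI _ (le_of_lt hy)⟩
      have h2 : |ρ * y 0| < ρ := by
        rw [abs_mul, abs_of_pos ρ0]; exact mul_lt_of_lt_one_right ρ0 hy
      refine ⟨⟨hb (by simpa using h2.trans_le (min_le_left _ _)) _ h1.1 h1.1 h1.2,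
        (hU'.le ⟨?_, Q.c.mf h1⟩).1⟩, Q.OA (Q.c.mf h1)⟩
      show (Q.c.g _).2 ∈ ball 0 ρ
      rw [Q.c.li _ h1]; simpa using h2
    · rintro z ⟨⟨h1, h2⟩, h3⟩
      have h4 := hW2 ⟨h1, h3⟩
      have h5 : |(Q.c.g z).2| < ρ := by simpa using (hU'.ge ⟨h2, h4⟩).1
      obtain ⟨t, ht⟩ := hγ.img.ge (Q.QD (Q.g1 h4))
      refine ⟨![ρ⁻¹ * (Q.c.g z).2, t], ?_, ?_⟩
      · show |ρ⁻¹ * (Q.c.g z).2| < 1
        rw [abs_mul, abs_of_pos (inv_pos.2 ρ0), inv_mul_lt_iff₀ ρ0, mul_one]; exact h5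
      · show Q.c.f (γ t, ρ * (ρ⁻¹ * (Q.c.g z).2)) = z
        rw [ht, ← mul_assoc, mul_inv_cancel₀ ρ0.ne', one_mul, Q.fg h4]

end Crest.Agent.X212.Anb49
end

-- ▼ part X212/Tor42/Main

/-!
# X212 / T layer, TOR (helper42), part 4: recognition of the torus, `Rung0Stmt` without `TorRec`
-/

set_option autoImplicit false

open Set Filter Topology Metric

namespace Crest.Agent.X212.Tor42

open Crest.Agent.R096 Crest.Agent.R096.Ce_537 Crest.Agent.X212.Prd34 Crest.Agent.X212.Srf12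
  Crest.Agent.X212.Lev33 Crest.Agent.X212.Rz42

/-- **(NONSEP)** (12) -/
def Nonsep : Prop := ∀ S : Set V, Srf S ∅ → IsConnected S →
  (∃ c : V → V → Z2, Coc S c ∧ ¬ Tr S c) → ∃ (Γ : Set V) (γ : ℝ → V), Loop Γ γ ∧ Γ ⊆ S ∧
    IsPreconnected (S \ Γ) ∧ ∃ ω : V → V → Z2, Coc S ω ∧ ¬ Tr Γ ω

/-- **(BDSUM)** (12) -/
def Bdsum : Prop := ∀ (B G₁ G₂ : Set V) (γ₁ γ₂ : ℝ → V) (κ : V → V → Z2), Srf B (G₁ ∪ G₂) →
  Disjoint G₁ G₂ → Loop G₁ γ₁ → Loop G₂ γ₂ → Coc B κ → Tr G₁ κ → Tr G₂ κ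

variable {H : V → V} {S : Set V}

/-- **(TOR)** -/
theorem tor (hA : AnnRec) (hN : Nonsep) (hB : Bdsum) (h : Per {0, 1} H) (hS : Srf S ∅)
    (hr : S ⊆ range H) (hc : IsConnected (H ⁻¹' S))
    (ht : ∀ c : V → V → Z2, Coc S c → Tr (H ⁻¹' S) fun x y => c (H x) (H y))
    {M dM : Set V} (hM : Mf M dM) (hd : Clop dM S) :
    ∃ u : P → V, Continuous u ∧ Tor S (fun y => H (u y)) ∧
      ∀ y m : P, lv 0 m ∈ lat {0, 1} → u (y + m) = u y + lv 0 m := by
  have cS : IsConnected S := by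
    rw [← image_preimage_eq_of_subset hr]
    exact hc.image H h.cont.continuousOn
  obtain ⟨z, hz⟩ := hc.1
  obtain ⟨p, hp⟩ := (lpc_pre h (Srf.lcv hS).lpc).joined hc.2 hz (mem_add h hz e0_mem)
  obtain ⟨Γ, γ, hγ, sΓ, cΓ, ω, hω, nω⟩ := hN S hS cS ⟨_, (Rg3.coc_par h (i := 0) (by decide)).mono hr,
    Rg3.not_tr_par h (by decide) p.continuous_extend (fun t => hp _)
      (by simp [per_add h z e0_mem]) (by rw [p.extend_one, p.extend_zero]; simp [e0])⟩
  obtain ⟨A, g, hg, sA, eg, -⟩ := Anb49.anbStmt M dM Γ γ hM (sΓ.trans hd.sub) hγ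
  have e : g '' {y | y 0 = 0} = Γ := by
    rw [← (Ann83.ann_loop hg (c := 0) (by simp)).img, ← hγ.img]
    simp only [eg]
  have sA' : A ⊆ S := by
    have pA := bnd_pre hg (I := Icc (-1) 1) (fun t ht => abs_le.2 ht) (convex_Icc _ _)
    have eA : bnd g (Icc (-1) 1) = A := by
      rw [← hg.img]; simp only [bnd, abs_le, mem_Icc]
    exact hd.subset (eA ▸ pA) sA (x := γ 0) (hg.img ▸ ⟨![0, 0], by simp, eg 0⟩)
      (sΓ (hγ.img ▸ ⟨0, rfl⟩))
  obtain ⟨A', B, k, hk, un, it, sB, cB, sub⟩ := cut hS hg sA' (e ▸ cΓ)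
  have l1 := Ann83.ann_loop hk (c := 1) (by simp)
  have l2 := Ann83.ann_loop hk (c := -1) (by simp)
  have dj : Disjoint (k '' {y | y 0 = 1}) (k '' {y | y 0 = -1}) := disjoint_left.2 (by
    rintro _ ⟨y, hy, rfl⟩ ⟨y', hy', q⟩
    have hy : y 0 = 1 := hy
    have hy' : y' 0 = -1 := hy'
    have := ((hk.fib y' y (by simp [hy']) (by simp [hy])).1 q).1
    linarith)
  have cl : ∀ a b : ℝ, -1 ≤ a → b ≤ 1 → IsClosed (bnd k (Icc a b)) := fun a b ha hb =>
    (bnd_cpt hk ha hb).isClosed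
  have eA : bnd k (Icc (-1) 1) = A' := by
    rw [← hk.img]; simp only [bnd, abs_le, mem_Icc]
  have r := rel h hr hc ht (eA ▸ cl _ _ le_rfl le_rfl) sB.cpt.isClosed
    (by simpa [bnd] using cl 1 1 (by norm_num) le_rfl)
    (by simpa [bnd] using cl (-1) (-1) le_rfl (by norm_num)) un it dj ⟨_, ![1, 0], rfl, rfl⟩
    ⟨_, ![-1, 0], rfl, rfl⟩ (eA ▸ bnd_pre hk (fun t ht => abs_le.2 ht) (convex_Icc _ _)) cB.2
    (e ▸ sub) hω nω fun κ => hB B _ _ _ _ κ sB dj l1 l2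
  obtain ⟨f, hf, e1, e2 | e2⟩ := hA B _ _ _ _ sB dj cB r l1 l2
  · obtain ⟨w, L⟩ := glue (ε := 1) (by simp) hk hf un it e1 (by simpa using e2)
    exact fin (Or.inl rfl) L h hr hc.2
  · obtain ⟨w, L⟩ := glue (ε := -1) (by simp) hk hf un it e1 (by simpa using e2)
    exact fin (Or.inr rfl) L h hr hc.2

/-- the invariant component and its image (`Rz42.exists_tor` with more output) -/
lemma exists_tor (hL : LevStmt) (hI : IncStmt) (h : Per {0, 1} H) (c : ℝ) {δ : ℝ} (hδ : 0 < δ) :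
    ∃ C M dM : Set V, Srf C ∅ ∧ C ⊆ H '' {x | |x 2 - c| < δ} ∧ IsConnected (H ⁻¹' C) ∧
      (∀ c : V → V → Z2, Coc C c → Tr (H ⁻¹' C) fun x y => c (H x) (H y)) ∧ Mf M dM ∧
      Clop dM C := by
  obtain ⟨A, B, η, hη, st, hA, hB, hn⟩ := exists_st hL hI h c hδ
  set Ut : Set V := {x | |x 2 - c| < δ} with hUt
  have pre : H ⁻¹' (H '' Ut) = Ut := by
    refine Subset.antisymm ?_ (subset_preimage_image _ _)
    rintro x ⟨y, hy, e⟩
    have := lat_two ((h.fib _ _).1 e)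
    show |x 2 - c| < δ
    rwa [← sub_eq_zero.1 this]
  have lin : IsLinearMap ℝ fun x : V => x 2 := ⟨fun _ _ => rfl, fun _ _ => rfl⟩
  have cvx : ∀ a b : ℝ, Convex ℝ {x : V | a < x 2 ∧ x 2 < b} := fun a b =>
    (convex_halfSpace_gt lin a).inter (convex_halfSpace_lt lin b)
  have cU : Convex ℝ Ut := by
    convert cvx (c - δ) (c + δ) using 1
    ext x
    simp only [hUt, mem_ofPred_eq, abs_lt]
    constructor <;> rintro ⟨a, b⟩ <;> constructor <;> linarith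
  have lp : LPC (H ⁻¹' A ∩ H ⁻¹' B) := lpc_pre h st.spl.lcv.lpc
  set ε := max η 0 with hε
  have e1 : η ≤ ε := le_max_left _ _
  have e2 : 0 ≤ ε := le_max_right _ _
  have e3 : ε < δ := max_lt hη hδ
  have D : Dat Ut (H ⁻¹' A) (H ⁻¹' B) {x : V | c - δ < x 2 ∧ x 2 < c - ε}
      {x : V | c + ε < x 2 ∧ x 2 < c + δ} ![0, 0, c - (ε + δ) / 2] ![0, 0, c + (ε + δ) / 2]
      (latG {0, 1}) := by
    refine ⟨isOpen_lt (by fun_prop) continuous_const, cU, by rw [← preimage_union, st.spl.union, pre],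
      ?_, ?_, fun x hx => (lp.clop x).mem (mem_connectedComponentIn hx), (cvx _ _).isPreconnected,
      (cvx _ _).isPreconnected, fun x hx => ⟨?_, fun k => ?_⟩, fun x hx => ⟨?_, fun k => ?_⟩,
      fun l hl x => by rw [mem_preimage, per_add h x hl]; rfl,
      fun l hl x => by rw [mem_preimage, per_add h x hl]; rfl, fun l hl => ?_, fun l hl => ?_⟩
    · rw [← pre]; exact st.spl.clA.preimage h.cont
    · rw [← pre]; exact st.spl.clB.preimage h.cont
    · show |x 2 - c| < δ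
      exact abs_lt.2 ⟨by linarith [hx.1], by linarith [hx.2]⟩
    · linarith [hA x k, hx.2]
    · show |x 2 - c| < δ
      exact abs_lt.2 ⟨by linarith [hx.1], by linarith [hx.2]⟩
    · linarith [hB x k, hx.1]
    · have : (![0, 0, c - (ε + δ) / 2] + l : V) 2 = c - (ε + δ) / 2 := by simp [lat_two hl]
      exact ⟨by rw [this]; linarith, by rw [this]; linarith⟩
    · have : (![0, 0, c + (ε + δ) / 2] + l : V) 2 = c + (ε + δ) / 2 := by simp [lat_two hl]
      exact ⟨by rw [this]; linarith, by rw [this]; linarith⟩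
  obtain ⟨x, hx, inv⟩ := D.exists_inv
  have cT := lp.clop x
  set T := connectedComponentIn (H ⁻¹' A ∩ H ⁻¹' B) x with hT
  have pT : H ⁻¹' (H '' T) = T := by
    refine Subset.antisymm ?_ (subset_preimage_image _ _)
    rintro y ⟨z, hz, e⟩
    simpa using inv _ ((h.fib _ _).1 e.symm) z hz
  have sU : A ∩ B ⊆ H '' Ut := fun y hy => st.spl.subA hy.1
  have cC : Clop (A ∩ B) (H '' T) := by
    refine clop_of (image_subset_iff.2 cT.sub) ?_ fun y hy hy' => ?_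
    · rintro _ ⟨y, hy, rfl⟩
      exact push h.opn (by rw [pT]; exact cT.mem hy)
    · obtain ⟨z, -, rfl⟩ := sU hy
      exact push h.opn (by
        rw [preimage_compl, pT]; exact cT.notMem hy fun k => hy' ⟨z, k, rfl⟩)
  refine ⟨H '' T, A, A ∩ B, ?_, cC.sub.trans sU, ?_, fun g hg => ?_, st.spl.mf, cC⟩
  · have := st.srf
    rw [union_empty] at this
    simpa using Srf.clop this cC
  · rw [pT]; exact isConnected_connectedComponentIn_iff.2 hx
  · refine Rg3.tr_cover h (cC.lpc st.spl.lcv.lpc) cU (fun y hy => pre.subset (sU (cC.sub hy)))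
      (mapsTo_image H Ut) (fun y p hp k => ?_) hg
    obtain ⟨G, hG⟩ := hn y p (fun t => cC.sub (hp t)) k
    have k : range G ⊆ H '' T := cC.subset (isPreconnected_range G.continuous)
      (range_subset_iff.2 hG) (x := y) ⟨(0, 0), by simp⟩ (by simpa using hp 0)
    exact ⟨G, fun t => k ⟨t, rfl⟩⟩

/-- a PL torus near every level of a periodic embedding -/
theorem rung_of (hL : LevStmt) (hI : IncStmt) (hA : AnnRec) (hN : Nonsep) (hB : Bdsum)
    (h : Per {0, 1} H) (c : ℝ) {δ : ℝ} (hδ : 0 < δ) : ∃ u, Rung ∅ {0, 1} H c δ u := by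
  obtain ⟨C, M, dM, h1, h2, h3, h4, h5, h6⟩ := exists_tor hL hI h c hδ
  obtain ⟨u, cu, tu, eu⟩ := tor hA hN hB h h1 (h2.trans (image_subset_range _ _)) h3 h4 h5 h6
  have no : ∀ x, x ∉ out ∅ := fun x ⟨i, hi, _⟩ => absurd hi (Finset.notMem_empty i)
  refine ⟨u, cu, fun y y' e => ?_, eu, fun y k => (no _ k).elim, fun y _ => no _, fun y => ?_,
    fun y _ => ⟨1, one_pos, (tu.pl (‖y‖ + 1)).mono fun z hz => ?_⟩⟩
  · have k := (tu.fib y y').1 (by simp only [e])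
    have hl : lv 0 (y - y') ∈ lat {0, 1} := fun i => by
      fin_cases i
      · exact ⟨fun _ => k 0, fun q => absurd (by decide) q⟩
      · exact ⟨fun _ => k 1, fun q => absurd (by decide) q⟩
      · exact ⟨fun q => absurd q (by decide), fun _ => rfl⟩
    have := eu y' _ hl
    rw [add_sub_cancel, e, left_eq_add] at this
    refine sub_eq_zero.1 (funext fun i => ?_)
    fin_cases i
    · exact congrFun this 0
    · exact congrFun this 1
  · obtain ⟨x, hx, e⟩ := h2 (tu.img ▸ ⟨y, rfl⟩ : H (u y) ∈ C)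
    rwa [← sub_eq_zero.1 (lat_two ((h.fib _ _).1 e))]
  · rw [mem_closedBall_zero_iff]
    have := norm_le_norm_add_norm_sub' z y
    rw [mem_ball, dist_eq_norm] at hz
    linarith

/-- **(RUNG0)** -/
theorem rung0 (hL : LevStmt) (hI : IncStmt) (hA : AnnRec) (hN : Nonsep) (hB : Bdsum) : Rung0Stmt :=
  fun _ _ hp _ hh c _ hδ => rung_of hL hI hA hN hB (Lad50.per_comp_qq' hp hh) c hδ

end Crest.Agent.X212.Tor42
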